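import Mathlib
import Vale.Agent.P026.H142.BV

open Finset

namespace Vale.Agent.P026.H267

/-- Sum over the divisors of `n`. -/
noncomputable def dsum (α : ℕ → ℝ) (n : ℕ) : ℝ := ∑ d ∈ n.divisors, α d

lemma dsum_eq {α : ℕ → ℝ} {U : ℕ} (hα : ∀ d, U < d → α d = 0) {n : ℕ} (hn : 1 ≤ n) :
    dsum α n = ∑ d ∈ Icc 1 U, if d ∣ n then α d else 0 := by
  unfold dsum
  rw [← Finset.sum_filter]
  symm
  apply Finset.sum_subset_zero_on_sdiff
  · intro d hd
    rw [Finset.mem_filter] at hd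
    exact Nat.mem_divisors.2 ⟨hd.2, by omega⟩
  · intro d hd
    rw [Finset.mem_sdiff, Finset.mem_filter, Finset.mem_Icc] at hd
    apply hα
    by_contra hcon
    apply hd.2
    have h1 := Nat.mem_divisors.1 hd.1
    have h2 : 0 < d := Nat.pos_of_dvd_of_pos h1.1 (by omega)
    exact ⟨⟨h2, by omega⟩, h1.1⟩
  · intro d _
    rfl

lemma sum_multiples (g : ℕ → ℂ) (hg : ∀ m n, g (m * n) = g m * g n) (N D : ℕ) (hD : 0 < D) :
    (∑ n ∈ Icc 1 N, if D ∣ n then g n else 0) = g D * ∑ m ∈ Icc 1 (N / D), g m := by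
  rw [← Finset.sum_filter, Finset.mul_sum]
  symm
  apply Finset.sum_bij (fun m _ => D * m)
  · intro m hm
    rw [Finset.mem_Icc] at hm
    rw [Finset.mem_filter, Finset.mem_Icc]
    refine ⟨⟨Nat.mul_pos hD (by omega), ?_⟩, Dvd.intro m rfl⟩
    calc D * m ≤ D * (N / D) := Nat.mul_le_mul_left _ hm.2
      _ ≤ N := Nat.mul_div_le N D
  · intro a _ b _ hab
    exact Nat.eq_of_mul_eq_mul_left hD hab
  · intro n hn
    rw [Finset.mem_filter, Finset.mem_Icc] at hn
    obtain ⟨m, rfl⟩ := hn.2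
    refine ⟨m, ?_, rfl⟩
    rw [Finset.mem_Icc]
    refine ⟨?_, ?_⟩
    · rcases Nat.eq_zero_or_pos m with h | h
      · subst h; simp at hn
      · exact h
    · rw [Nat.le_div_iff_mul_le hD]
      linarith [hn.1.2, Nat.mul_comm D m]
  · intro m _
    exact (hg D m).symm

/-- Opening the two divisor sums. -/
theorem sum_twist (α β : ℕ → ℝ) (U V : ℕ) (hα : ∀ d, U < d → α d = 0)
    (hβ : ∀ e, V < e → β e = 0) (g : ℕ → ℂ) (hg : ∀ m n, g (m * n) = g m * g n) (N : ℕ) :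
    ∑ n ∈ Icc 1 N, ((dsum α n : ℝ) : ℂ) * ((dsum β n : ℝ) : ℂ) * g n
      = ∑ d ∈ Icc 1 U, ∑ e ∈ Icc 1 V, ((α d : ℝ) : ℂ) * ((β e : ℝ) : ℂ) *
          (g (Nat.lcm d e) * ∑ m ∈ Icc 1 (N / Nat.lcm d e), g m) := by
  have h1 : ∀ n ∈ Icc 1 N, ((dsum α n : ℝ) : ℂ) * ((dsum β n : ℝ) : ℂ) * g n
      = ∑ d ∈ Icc 1 U, ∑ e ∈ Icc 1 V, ((α d : ℝ) : ℂ) * ((β e : ℝ) : ℂ) *
          (if Nat.lcm d e ∣ n then g n else 0) := by
    intro n hn
    have hn1 : 1 ≤ n := (Finset.mem_Icc.1 hn).1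
    rw [dsum_eq hα hn1, dsum_eq hβ hn1]
    push_cast
    rw [Finset.sum_mul_sum, Finset.sum_mul]
    refine Finset.sum_congr rfl fun d _ => ?_
    rw [Finset.sum_mul]
    refine Finset.sum_congr rfl fun e _ => ?_
    by_cases hd : d ∣ n
    · by_cases he : e ∣ n
      · have : Nat.lcm d e ∣ n := Nat.lcm_dvd hd he
        simp [hd, he, this]
      · have : ¬ Nat.lcm d e ∣ n := fun h => he ((Nat.dvd_lcm_right d e).trans h)
        simp [he, this]
    · have : ¬ Nat.lcm d e ∣ n := fun h => hd ((Nat.dvd_lcm_left d e).trans h)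
      simp [hd, this]
  rw [Finset.sum_congr rfl h1, Finset.sum_comm]
  refine Finset.sum_congr rfl fun d hd => ?_
  rw [Finset.sum_comm]
  refine Finset.sum_congr rfl fun e he => ?_
  rw [← Finset.mul_sum]
  congr 1
  apply sum_multiples g hg
  exact Nat.lcm_pos (Finset.mem_Icc.1 hd).1 (Finset.mem_Icc.1 he).1

/-- Harmonic sum. -/
noncomputable def harm (U : ℕ) : ℝ := ∑ n ∈ Icc 1 U, (1 : ℝ) / n

lemma harm_nonneg (U : ℕ) : 0 ≤ harm U := Finset.sum_nonneg fun n _ => by positivity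

lemma harm_mono {U V : ℕ} (h : U ≤ V) : harm U ≤ harm V := by
  unfold harm
  apply Finset.sum_le_sum_of_subset_of_nonneg
  · exact Finset.Icc_subset_Icc_right h
  · intro i _ _; positivity

lemma sum_inv_multiples_le (U f : ℕ) (hf : 0 < f) :
    (∑ d ∈ Icc 1 U, if f ∣ d then (1 : ℝ) / d else 0) ≤ harm U / f := by
  have hle : (∑ d ∈ Icc 1 U, if f ∣ d then (1 : ℝ) / d else 0)
      ≤ ∑ m ∈ Icc 1 U, (1 : ℝ) / (f * m : ℕ) := by
    rw [← Finset.sum_filter]
    have himg : (Icc 1 U).filter (fun d => f ∣ d) ⊆ (Icc 1 U).image (fun m => f * m) := by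
      intro d hd
      rw [Finset.mem_filter, Finset.mem_Icc] at hd
      obtain ⟨m, rfl⟩ := hd.2
      rw [Finset.mem_image]
      refine ⟨m, ?_, rfl⟩
      rw [Finset.mem_Icc]
      constructor
      · rcases Nat.eq_zero_or_pos m with h | h
        · subst h; simp at hd
        · exact h
      · calc m = 1 * m := (one_mul m).symm
          _ ≤ f * m := Nat.mul_le_mul_right _ hf
          _ ≤ U := hd.1.2
    calc ∑ d ∈ (Icc 1 U).filter (fun d => f ∣ d), (1 : ℝ) / d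
        ≤ ∑ d ∈ (Icc 1 U).image (fun m => f * m), (1 : ℝ) / d :=
          Finset.sum_le_sum_of_subset_of_nonneg himg (fun i _ _ => by positivity)
      _ = ∑ m ∈ Icc 1 U, (1 : ℝ) / (f * m : ℕ) := by
          rw [Finset.sum_image]
          intro a _ b _ hab
          exact Nat.eq_of_mul_eq_mul_left hf hab
  refine hle.trans (le_of_eq ?_)
  unfold harm
  rw [Finset.sum_div]
  refine Finset.sum_congr rfl fun m _ => ?_
  push_cast
  rw [div_div, mul_comm]

/-- Crude bound for the sum of reciprocals of least common multiples. -/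
lemma sum_inv_lcm_le (U V : ℕ) :
    ∑ d ∈ Icc 1 U, ∑ e ∈ Icc 1 V, (1 : ℝ) / (Nat.lcm d e : ℝ)
      ≤ harm U * harm V ^ 2 := by
  have h1 : ∀ d ∈ Icc 1 U, ∀ e ∈ Icc 1 V, (1 : ℝ) / (Nat.lcm d e : ℝ)
      ≤ ∑ f ∈ Icc 1 V, (f : ℝ) * ((if f ∣ d then (1 : ℝ) / d else 0) *
          (if f ∣ e then (1 : ℝ) / e else 0)) := by
    intro d hd e he
    rw [Finset.mem_Icc] at hd he
    have hg0 : 0 < Nat.gcd d e := Nat.gcd_pos_of_pos_left _ hd.1
    have hmem : Nat.gcd d e ∈ Icc 1 V := by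
      rw [Finset.mem_Icc]
      exact ⟨hg0, (Nat.le_of_dvd he.1 (Nat.gcd_dvd_right d e)).trans he.2⟩
    refine le_trans (le_of_eq ?_) (Finset.single_le_sum (f := fun f : ℕ => (f : ℝ) *
      ((if f ∣ d then (1 : ℝ) / d else 0) * (if f ∣ e then (1 : ℝ) / e else 0)))
      (fun f _ => ?_) hmem)
    · have hgl : (Nat.gcd d e : ℝ) * (Nat.lcm d e : ℝ) = (d : ℝ) * e := by
        exact_mod_cast Nat.gcd_mul_lcm d e
      have hd0 : (0 : ℝ) < d := by exact_mod_cast hd.1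
      have he0 : (0 : ℝ) < e := by exact_mod_cast he.1
      have hg1 : (0 : ℝ) < Nat.gcd d e := by exact_mod_cast hg0
      have hl0 : (0 : ℝ) < Nat.lcm d e := by exact_mod_cast Nat.lcm_pos hd.1 he.1
      simp only [Nat.gcd_dvd_left, Nat.gcd_dvd_right, if_true]
      field_simp
      linarith
    · positivity
  calc ∑ d ∈ Icc 1 U, ∑ e ∈ Icc 1 V, (1 : ℝ) / (Nat.lcm d e : ℝ)
      ≤ ∑ d ∈ Icc 1 U, ∑ e ∈ Icc 1 V, ∑ f ∈ Icc 1 V, (f : ℝ) *
        ((if f ∣ d then (1 : ℝ) / d else 0) * (if f ∣ e then (1 : ℝ) / e else 0)) :=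
        Finset.sum_le_sum fun d hd => Finset.sum_le_sum fun e he => h1 d hd e he
    _ = ∑ f ∈ Icc 1 V, (f : ℝ) * ((∑ d ∈ Icc 1 U, if f ∣ d then (1 : ℝ) / d else 0) *
        (∑ e ∈ Icc 1 V, if f ∣ e then (1 : ℝ) / e else 0)) := by
        rw [Finset.sum_congr rfl (fun d _ => Finset.sum_comm), Finset.sum_comm]
        refine Finset.sum_congr rfl fun f _ => ?_
        rw [Finset.sum_mul_sum, Finset.mul_sum]
        refine Finset.sum_congr rfl fun d _ => ?_
        rw [Finset.mul_sum]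
    _ ≤ ∑ f ∈ Icc 1 V, (f : ℝ) * ((harm U / f) * (harm V / f)) := by
        refine Finset.sum_le_sum fun f hf => ?_
        have hf0 : 0 < f := (Finset.mem_Icc.1 hf).1
        have h3 : 0 ≤ ∑ e ∈ Icc 1 V, if f ∣ e then (1 : ℝ) / e else 0 :=
          Finset.sum_nonneg fun e _ => by positivity
        have h4 := harm_nonneg U
        gcongr
        · exact sum_inv_multiples_le U f hf0
        · exact sum_inv_multiples_le V f hf0
    _ = harm U * harm V ^ 2 := by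
        have : ∀ f ∈ Icc 1 V, (f : ℝ) * ((harm U / f) * (harm V / f))
            = (harm U * harm V) * ((1 : ℝ) / f) := by
          intro f hf
          have hf0 : (f : ℝ) ≠ 0 := by
            have := (Finset.mem_Icc.1 hf).1
            positivity
          field_simp
        rw [Finset.sum_congr rfl this, ← Finset.mul_sum]
        change harm U * harm V * harm V = _
        ring

/-- Twisted version: the weights `[d,e]^{-(1-δ)}`. -/
lemma sum_rpow_lcm_le (U V : ℕ) {δ : ℝ} (hδ : 0 ≤ δ) :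
    ∑ d ∈ Icc 1 U, ∑ e ∈ Icc 1 V, (Nat.lcm d e : ℝ) ^ (-(1 - δ))
      ≤ ((U : ℝ) * V) ^ δ * (harm U * harm V ^ 2) := by
  calc ∑ d ∈ Icc 1 U, ∑ e ∈ Icc 1 V, (Nat.lcm d e : ℝ) ^ (-(1 - δ))
      ≤ ∑ d ∈ Icc 1 U, ∑ e ∈ Icc 1 V, ((U : ℝ) * V) ^ δ * ((1 : ℝ) / (Nat.lcm d e : ℝ)) := by
        refine Finset.sum_le_sum fun d hd => Finset.sum_le_sum fun e he => ?_
        rw [Finset.mem_Icc] at hd he
        have hl0 : (0 : ℝ) < Nat.lcm d e := by exact_mod_cast Nat.lcm_pos hd.1 he.1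
        have hle : (Nat.lcm d e : ℝ) ≤ (U : ℝ) * V := by
          have : Nat.lcm d e ≤ U * V :=
            (Nat.lcm_le_mul (by omega) (by omega)).trans (Nat.mul_le_mul hd.2 he.2)
          exact_mod_cast this
        rw [show -(1 - δ) = δ + (-1) by ring, Real.rpow_add hl0, Real.rpow_neg_one, one_div]
        gcongr
    _ = ((U : ℝ) * V) ^ δ * ∑ d ∈ Icc 1 U, ∑ e ∈ Icc 1 V, (1 : ℝ) / (Nat.lcm d e : ℝ) := by
        rw [Finset.mul_sum]
        refine Finset.sum_congr rfl fun d _ => ?_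
        rw [Finset.mul_sum]
    _ ≤ ((U : ℝ) * V) ^ δ * (harm U * harm V ^ 2) := by
        gcongr
        exact sum_inv_lcm_le U V

lemma harm_le (U : ℕ) : harm U ≤ 1 + Real.log U := by
  have h := harmonic_le_one_add_log U
  have h2 : harm U = (harmonic U : ℝ) := by
    unfold harm
    rw [harmonic_eq_sum_Icc]
    push_cast
    refine Finset.sum_congr rfl fun n _ => by rw [one_div]
  rw [h2]
  exact h

end Vale.Agent.P026.H267
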