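import Mathlib
import Vale.Agent.P026.H142.BV
import Vale.Agent.P026.H267.Detect

open Finset

namespace Vale.Agent.P026.H267

open Vale.Agent.P026.H142

lemma alph_eq_zero {z1 z2 : ℝ} (h12 : z1 < z2) {d : ℕ} (hd : ⌊z2⌋₊ < d) : alph z1 z2 d = 0 := by
  have h2 : lam z2 d = 0 := by
    by_contra h
    have := (Finset.mem_Ioc.1 (lam_support h)).2
    omega
  have h1 : lam z1 d = 0 := by
    by_contra h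
    have h3 := (Finset.mem_Ioc.1 (lam_support h)).2
    have h4 : ⌊z1⌋₊ ≤ ⌊z2⌋₊ := Nat.floor_mono h12.le
    omega
  simp [alph, h1, h2]

lemma bet_eq_zero {z : ℝ} {d : ℕ} (hd : ⌊z⌋₊ < d) : bet z d = 0 := by
  have h2 : lam z d = 0 := by
    by_contra h
    have := (Finset.mem_Ioc.1 (lam_support h)).2
    omega
  simp [bet, h2]

/-- The mixed form of the two weights. -/
noncomputable def mix (z z1 z2 : ℝ) : ℝ :=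
  ∑ d ∈ Icc 1 ⌊z2⌋₊, ∑ e ∈ Icc 1 ⌊z⌋₊, alph z1 z2 d * bet z e / (Nat.lcm d e : ℝ)

theorem detect_approx {z z1 z2 X Y0 δ ε : ℝ} (hz : 1 < z) (hz1 : 1 ≤ z1) (h12 : z1 < z2)
    (hX : z * z2 * Y0 ≤ X) (hX0 : 0 ≤ X) (hδ : 0 ≤ δ) (hε : 0 ≤ ε)
    (g : ℕ → ℂ) (hg : ∀ m n, g (m * n) = g m * g n)
    (hgn : ∀ n : ℕ, 1 ≤ n → ‖g n‖ ≤ (n : ℝ) ^ (-(1 - δ)))
    (P : ℝ → ℂ) (hS : ∀ y, Y0 ≤ y → ‖∑ m ∈ Icc 1 ⌊y⌋₊, g m - P y‖ ≤ ε)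
    (Pt : ℂ) (hP : ∀ D : ℕ, 1 ≤ D → g D * P (X / D) = Pt / D) :
    ‖∑ n ∈ Icc 1 ⌊X⌋₊, ((aw z1 z2 n : ℝ) : ℂ) * ((bw z n : ℝ) : ℂ) * g n
        - Pt * ((mix z z1 z2 : ℝ) : ℂ)‖
      ≤ ε * ((z2 * z) ^ δ * (harm ⌊z2⌋₊ * harm ⌊z⌋₊ ^ 2)) := by
  have hz2 : 1 < z2 := lt_of_le_of_lt hz1 h12
  have hα : ∀ d, ⌊z2⌋₊ < d → alph z1 z2 d = 0 := fun d hd => alph_eq_zero h12 hd
  have hβ : ∀ e, ⌊z⌋₊ < e → bet z e = 0 := fun e he => bet_eq_zero he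
  have h1 := sum_twist (alph z1 z2) (bet z) ⌊z2⌋₊ ⌊z⌋₊ hα hβ g hg ⌊X⌋₊
  have h2 : ∑ n ∈ Icc 1 ⌊X⌋₊, ((aw z1 z2 n : ℝ) : ℂ) * ((bw z n : ℝ) : ℂ) * g n
      = ∑ d ∈ Icc 1 ⌊z2⌋₊, ∑ e ∈ Icc 1 ⌊z⌋₊, ((alph z1 z2 d : ℝ) : ℂ) * ((bet z e : ℝ) : ℂ) *
          (g (Nat.lcm d e) * ∑ m ∈ Icc 1 (⌊X⌋₊ / Nat.lcm d e), g m) := h1
  have h3 : Pt * ((mix z z1 z2 : ℝ) : ℂ)
      = ∑ d ∈ Icc 1 ⌊z2⌋₊, ∑ e ∈ Icc 1 ⌊z⌋₊, ((alph z1 z2 d : ℝ) : ℂ) * ((bet z e : ℝ) : ℂ) *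
          (g (Nat.lcm d e) * P (X / (Nat.lcm d e : ℕ))) := by
    unfold mix
    push_cast
    rw [Finset.mul_sum]
    refine Finset.sum_congr rfl fun d hd => ?_
    rw [Finset.mul_sum]
    refine Finset.sum_congr rfl fun e he => ?_
    rw [hP _ (Nat.lcm_pos (Finset.mem_Icc.1 hd).1 (Finset.mem_Icc.1 he).1)]
    ring
  rw [h2, h3, ← Finset.sum_sub_distrib]
  have h4 : ∀ d ∈ Icc 1 ⌊z2⌋₊, ∀ e ∈ Icc 1 ⌊z⌋₊,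
      ‖((alph z1 z2 d : ℝ) : ℂ) * ((bet z e : ℝ) : ℂ) *
          (g (Nat.lcm d e) * ∑ m ∈ Icc 1 (⌊X⌋₊ / Nat.lcm d e), g m)
        - ((alph z1 z2 d : ℝ) : ℂ) * ((bet z e : ℝ) : ℂ) *
          (g (Nat.lcm d e) * P (X / (Nat.lcm d e : ℕ)))‖
      ≤ ε * (Nat.lcm d e : ℝ) ^ (-(1 - δ)) := by
    intro d hd e he
    rw [Finset.mem_Icc] at hd he
    have hlpos : 1 ≤ Nat.lcm d e := Nat.lcm_pos hd.1 he.1
    have hl0 : (0 : ℝ) < Nat.lcm d e := by exact_mod_cast hlpos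
    rw [← mul_sub, ← mul_sub, norm_mul, norm_mul, norm_mul]
    have ha : ‖((alph z1 z2 d : ℝ) : ℂ)‖ ≤ 1 := by
      rw [Complex.norm_real]; exact abs_alph_le hz1 h12 d
    have hb : ‖((bet z e : ℝ) : ℂ)‖ ≤ 1 := by
      rw [Complex.norm_real]; exact abs_bet_le hz e
    have hlle : (Nat.lcm d e : ℝ) ≤ z * z2 := by
      have h5 : Nat.lcm d e ≤ d * e := Nat.lcm_le_mul (by omega) (by omega)
      have h6 : (d : ℝ) ≤ z2 := (Nat.le_floor_iff (by linarith)).1 hd.2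
      have h7 : (e : ℝ) ≤ z := (Nat.le_floor_iff (by linarith)).1 he.2
      calc (Nat.lcm d e : ℝ) ≤ (d : ℝ) * e := by exact_mod_cast h5
        _ ≤ z2 * z := by gcongr
        _ = z * z2 := mul_comm _ _
    have hy : Y0 ≤ X / (Nat.lcm d e : ℕ) := by
      rcases le_or_gt Y0 0 with hY | hY
      · exact hY.trans (by positivity)
      rw [le_div_iff₀ hl0]
      calc Y0 * (Nat.lcm d e : ℝ) ≤ Y0 * (z * z2) := by gcongr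
        _ = z * z2 * Y0 := mul_comm _ _
        _ ≤ X := hX
    have hfl : ⌊X⌋₊ / Nat.lcm d e = ⌊X / (Nat.lcm d e : ℕ)⌋₊ := (Nat.floor_div_natCast X _).symm
    have hc := hS _ hy
    rw [hfl]
    have hgb := hgn _ hlpos
    calc ‖((alph z1 z2 d : ℝ) : ℂ)‖ * ‖((bet z e : ℝ) : ℂ)‖ *
          (‖g (Nat.lcm d e)‖ * ‖∑ m ∈ Icc 1 ⌊X / (Nat.lcm d e : ℕ)⌋₊, g m
            - P (X / (Nat.lcm d e : ℕ))‖)
        ≤ 1 * 1 * ((Nat.lcm d e : ℝ) ^ (-(1 - δ)) * ε) := by gcongr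
      _ = ε * (Nat.lcm d e : ℝ) ^ (-(1 - δ)) := by ring
  calc ‖∑ d ∈ Icc 1 ⌊z2⌋₊, (∑ e ∈ Icc 1 ⌊z⌋₊, ((alph z1 z2 d : ℝ) : ℂ) * ((bet z e : ℝ) : ℂ) *
          (g (Nat.lcm d e) * ∑ m ∈ Icc 1 (⌊X⌋₊ / Nat.lcm d e), g m)
        - ∑ e ∈ Icc 1 ⌊z⌋₊, ((alph z1 z2 d : ℝ) : ℂ) * ((bet z e : ℝ) : ℂ) *
          (g (Nat.lcm d e) * P (X / (Nat.lcm d e : ℕ))))‖
      ≤ ∑ d ∈ Icc 1 ⌊z2⌋₊, ∑ e ∈ Icc 1 ⌊z⌋₊, ε * (Nat.lcm d e : ℝ) ^ (-(1 - δ)) := by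
        refine (norm_sum_le _ _).trans (Finset.sum_le_sum fun d hd => ?_)
        rw [← Finset.sum_sub_distrib]
        exact (norm_sum_le _ _).trans (Finset.sum_le_sum fun e he => h4 d hd e he)
    _ = ε * ∑ d ∈ Icc 1 ⌊z2⌋₊, ∑ e ∈ Icc 1 ⌊z⌋₊, (Nat.lcm d e : ℝ) ^ (-(1 - δ)) := by
        rw [Finset.mul_sum]
        exact Finset.sum_congr rfl fun d _ => by rw [Finset.mul_sum]
    _ ≤ ε * (((⌊z2⌋₊ : ℝ) * ⌊z⌋₊) ^ δ * (harm ⌊z2⌋₊ * harm ⌊z⌋₊ ^ 2)) := by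
        gcongr
        exact sum_rpow_lcm_le _ _ hδ
    _ ≤ ε * ((z2 * z) ^ δ * (harm ⌊z2⌋₊ * harm ⌊z⌋₊ ^ 2)) := by
        have h8 : (⌊z2⌋₊ : ℝ) ≤ z2 := Nat.floor_le (by linarith)
        have h9 : (⌊z⌋₊ : ℝ) ≤ z := Nat.floor_le (by linarith)
        have h10 := harm_nonneg ⌊z2⌋₊
        gcongr

/-- Bound for the mixed form. -/
theorem abs_mix_le {z z1 z2 : ℝ} (hz : 1 < z) (hz1 : 1 ≤ z1) (h12 : z1 < z2) (hzz : z ≤ z2) :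
    |mix z z1 z2| ≤ 128 * CE * (1 + Real.log z2) / (Real.log (z2 / z1) * Real.log z) := by
  have hlz : 0 < Real.log z := Real.log_pos hz
  have hl12 : 0 < Real.log (z2 / z1) := Real.log_pos (by rw [lt_div_iff₀ (by linarith)]; linarith)
  have hfl : ⌊z⌋₊ ≤ ⌊z2⌋₊ := Nat.floor_mono hzz
  have hfl1 : ⌊z1⌋₊ ≤ ⌊z2⌋₊ := Nat.floor_mono h12.le
  have hsub : Icc 1 ⌊z⌋₊ ⊆ Icc 1 ⌊z2⌋₊ := Finset.Icc_subset_Icc_right hfl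
  have hIoc : Ioc 0 ⌊z2⌋₊ = Icc 1 ⌊z2⌋₊ := by ext; simp [Finset.mem_Ioc, Finset.mem_Icc]; omega
  have hext : ∀ d, ∑ e ∈ Icc 1 ⌊z⌋₊, alph z1 z2 d * bet z e / (Nat.lcm d e : ℝ)
      = ∑ e ∈ Icc 1 ⌊z2⌋₊, alph z1 z2 d * bet z e / (Nat.lcm d e : ℝ) := by
    intro d
    apply Finset.sum_subset hsub
    intro e _ he
    have : ⌊z⌋₊ < e := by
      by_contra hcon
      apply he
      rw [Finset.mem_Icc] at *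
      omega
    rw [bet_eq_zero this]
    simp
  have hmix : mix z z1 z2 = (Qb (1 + 0) z2 z ⌊z2⌋₊ - Qb (1 + 0) z1 z ⌊z2⌋₊)
      / (Real.log (z2 / z1) * Real.log z) := by
    unfold mix Qb
    rw [Finset.sum_congr rfl (fun d _ => hext d), ← Finset.sum_sub_distrib, Finset.sum_div, hIoc]
    refine Finset.sum_congr rfl fun d _ => ?_
    rw [← Finset.sum_sub_distrib, Finset.sum_div]
    refine Finset.sum_congr rfl fun e _ => ?_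
    unfold alph bet
    rw [add_zero, Real.rpow_one]
    field_simp
  have hb1 := abs_Qb_le (ε := 0) le_rfl (hz1.trans h12.le) hz.le (N := ⌊z2⌋₊) le_rfl hfl
  have hb2 := abs_Qb_le (ε := 0) le_rfl hz1 hz.le (N := ⌊z2⌋₊) hfl1 hfl
  have hCE := CE_pos
  have hl2 : 0 ≤ Real.log z2 := Real.log_nonneg (hz1.trans h12.le)
  have hl1 : 0 ≤ Real.log z1 := Real.log_nonneg hz1
  have hm1 : Real.log z ≤ Real.log z2 := Real.log_le_log (by linarith) hzz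
  have hm2 : Real.log z1 ≤ Real.log z2 := Real.log_le_log (by linarith) h12.le
  have hs1 : √((1 + Real.log z2) * (1 + Real.log z)) ≤ 1 + Real.log z2 := by
    rw [Real.sqrt_le_left (by linarith), sq]
    gcongr
  have hs2 : √((1 + Real.log z1) * (1 + Real.log z)) ≤ 1 + Real.log z2 := by
    rw [Real.sqrt_le_left (by linarith), sq]
    gcongr
  rw [hmix, abs_div, abs_of_pos (mul_pos hl12 hlz)]
  gcongr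
  calc |Qb (1 + 0) z2 z ⌊z2⌋₊ - Qb (1 + 0) z1 z ⌊z2⌋₊|
      ≤ |Qb (1 + 0) z2 z ⌊z2⌋₊| + |Qb (1 + 0) z1 z ⌊z2⌋₊| := abs_sub _ _
    _ ≤ 64 * CE * (1 + Real.log z2) + 64 * CE * (1 + Real.log z2) := by
        refine add_le_add (hb1.trans ?_) (hb2.trans ?_)
        · rw [zero_mul, zero_mul, add_zero, mul_one, mul_one]
          gcongr
        · rw [zero_mul, zero_mul, add_zero, mul_one, mul_one]
          gcongr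
    _ = 128 * CE * (1 + Real.log z2) := by ring

/-- **Detection.**  If the twisted partial sums `∑_{m ≤ y} g m` are close to `P y` (which is `0`
except for the zeta function) then the Barban–Vehov weighted sum over `z1 < n ≤ X` is large. -/
theorem detect {z z1 z2 X Y0 δ ε : ℝ} (hz : 1 < z) (hz1 : 1 ≤ z1) (h12 : z1 < z2)
    (hX : z * z2 * Y0 ≤ X) (hX1 : z1 ≤ X) (hδ : 0 ≤ δ) (hε : 0 ≤ ε)
    (g : ℕ → ℂ) (hg1 : g 1 = 1) (hg : ∀ m n, g (m * n) = g m * g n)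
    (hgn : ∀ n : ℕ, 1 ≤ n → ‖g n‖ ≤ (n : ℝ) ^ (-(1 - δ)))
    (P : ℝ → ℂ) (hS : ∀ y, Y0 ≤ y → ‖∑ m ∈ Icc 1 ⌊y⌋₊, g m - P y‖ ≤ ε)
    (Pt : ℂ) (hP : ∀ D : ℕ, 1 ≤ D → g D * P (X / D) = Pt / D)
    (hsmall : ε * ((z2 * z) ^ δ * (harm ⌊z2⌋₊ * harm ⌊z⌋₊ ^ 2)) ≤ 1 / 4)
    (hpole : ‖Pt‖ * |mix z z1 z2| ≤ 1 / 4) :
    1 / 2 ≤ ‖∑ n ∈ Ioc ⌊z1⌋₊ ⌊X⌋₊, ((aw z1 z2 n : ℝ) : ℂ) * ((bw z n : ℝ) : ℂ) * g n‖ := by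
  have hX0 : 0 ≤ X := by linarith
  have h1 := (detect_approx hz hz1 h12 hX hX0 hδ hε g hg hgn P hS Pt hP).trans hsmall
  set F : ℕ → ℂ := fun n => ((aw z1 z2 n : ℝ) : ℂ) * ((bw z n : ℝ) : ℂ) * g n with hF
  have hfl1 : 1 ≤ ⌊z1⌋₊ := (Nat.one_le_floor_iff _).2 hz1
  have hflX : ⌊z1⌋₊ ≤ ⌊X⌋₊ := Nat.floor_mono hX1
  have hsplit : ∑ n ∈ Icc 1 ⌊X⌋₊, F n = 1 + ∑ n ∈ Ioc ⌊z1⌋₊ ⌊X⌋₊, F n := by
    have hA : Icc 1 ⌊X⌋₊ = Icc 1 ⌊z1⌋₊ ∪ Ioc ⌊z1⌋₊ ⌊X⌋₊ := by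
      ext n
      simp only [Finset.mem_union, Finset.mem_Icc, Finset.mem_Ioc]
      omega
    have hdisj : Disjoint (Icc 1 ⌊z1⌋₊) (Ioc ⌊z1⌋₊ ⌊X⌋₊) := by
      rw [Finset.disjoint_left]
      intro n h2 h3
      simp only [Finset.mem_Icc, Finset.mem_Ioc] at h2 h3
      omega
    rw [hA, Finset.sum_union hdisj]
    congr 1
    rw [Finset.sum_eq_single_of_mem 1 (Finset.mem_Icc.2 ⟨le_rfl, hfl1⟩)]
    · simp only [hF]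
      rw [aw_one hz1 h12, bw_one hz, hg1]
      simp
    · intro n hn hn1
      rw [Finset.mem_Icc] at hn
      have : aw z1 z2 n = 0 := by
        apply aw_eq_zero h12 (by omega)
        exact (Nat.le_floor_iff (by linarith)).1 hn.2
      simp [hF, this]
  have hPt : ‖Pt * ((mix z z1 z2 : ℝ) : ℂ)‖ ≤ 1 / 4 := by
    rw [norm_mul, Complex.norm_real]
    exact hpole
  have h2 : ‖∑ n ∈ Icc 1 ⌊X⌋₊, F n‖ ≤ 1 / 2 := by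
    calc ‖∑ n ∈ Icc 1 ⌊X⌋₊, F n‖
        = ‖(∑ n ∈ Icc 1 ⌊X⌋₊, F n - Pt * ((mix z z1 z2 : ℝ) : ℂ)) +
            Pt * ((mix z z1 z2 : ℝ) : ℂ)‖ := by rw [sub_add_cancel]
      _ ≤ 1 / 4 + 1 / 4 := (norm_add_le _ _).trans (add_le_add h1 hPt)
      _ = 1 / 2 := by norm_num
  rw [hsplit] at h2
  have h3 : (1 : ℝ) ≤ ‖(1 : ℂ) + ∑ n ∈ Ioc ⌊z1⌋₊ ⌊X⌋₊, F n‖ + ‖∑ n ∈ Ioc ⌊z1⌋₊ ⌊X⌋₊, F n‖ := by
    calc (1 : ℝ) = ‖(1 : ℂ)‖ := by simp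
      _ = ‖((1 : ℂ) + ∑ n ∈ Ioc ⌊z1⌋₊ ⌊X⌋₊, F n) - ∑ n ∈ Ioc ⌊z1⌋₊ ⌊X⌋₊, F n‖ := by
          rw [add_sub_cancel_right]
      _ ≤ _ := norm_sub_le _ _
  change 1 / 2 ≤ ‖∑ n ∈ Ioc ⌊z1⌋₊ ⌊X⌋₊, F n‖
  linarith

end Vale.Agent.P026.H267
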