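import Mathlib
import Vale.Agent.P026.H392.KEmain

open Finset

namespace Vale.Agent.P026.H267

open Vale.Agent.P026.H392 (LL MM)

/-- Dirichlet characters of all moduli `q ≥ 1`. -/
abbrev CharIdx := Σ q : ℕ+, DirichletCharacter ℂ (q : ℕ)

/-- The Dirichlet `L`-function of `x` (Mathlib's `DirichletCharacter.LFunction`). -/
noncomputable def Lf (x : CharIdx) : ℂ → ℂ := DirichletCharacter.LFunction x.2

/-- The order of vanishing of `L(s, χ)` at `ρ` (`⊤` if it vanished identically near `ρ`). -/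
noncomputable def zord (x : CharIdx × ℂ) : ℕ∞ := analyticOrderAt (Lf x.1) x.2

/-- The same as a natural number. -/
noncomputable def zmul (x : CharIdx × ℂ) : ℕ := analyticOrderNatAt (Lf x.1) x.2

/-- The condition defining the region: `χ` primitive of modulus at most `Q`,
`Re ρ ≥ 1 - d`, `|Im ρ| ≤ T`. -/
def InRegion (Q T d : ℝ) (x : CharIdx × ℂ) : Prop :=
  ((x.1.1 : ℕ) : ℝ) ≤ Q ∧ x.1.2.IsPrimitive ∧ 1 - d ≤ x.2.re ∧ |x.2.im| ≤ T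

open Classical in
/-- The number of zeros, with multiplicity, of all `L(s, χ)`, `χ` primitive of conductor at most
`Q`, in the region `Re s ≥ 1 - d`, `|Im s| ≤ T`. -/
noncomputable def zeroCount (Q T d : ℝ) : ENNReal :=
  ∑' x : CharIdx × ℂ, if InRegion Q T d x then ((zord x : ℕ∞) : ENNReal) else 0

/-- Local count of zeros (input (6)). -/
def LocalCount (C : ℝ) : Prop :=
  ∀ Q : ℝ, 1 ≤ Q → ∀ T : ℝ, 3 ≤ T → ∀ x : CharIdx, ((x.1 : ℕ) : ℝ) ≤ Q → x.2.IsPrimitive →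
    ∀ t : ℝ, |t| ≤ T → ((x.1 : ℕ) = 1 → 1 ≤ |t|) → ∀ r : ℝ, 0 ≤ r → r ≤ 1 / 4 →
      ∀ S : Finset ℂ, (∀ ρ ∈ S, ‖ρ - (1 + t * Complex.I)‖ ≤ r) →
        ∑ ρ ∈ S, (zmul (x, ρ) : ℝ) ≤ C * (1 + r * LL Q T + r ^ (3 / 2 : ℝ) * Real.log T)

/-- Trivial count of zeros. -/
def TrivCount (C : ℝ) : Prop :=
  ∀ x : CharIdx, x.2.IsPrimitive → ∀ T : ℝ, 3 ≤ T → ∀ S : Finset ℂ,
      (∀ ρ ∈ S, 3 / 4 ≤ ρ.re ∧ |ρ.im| ≤ T) →
      ∑ ρ ∈ S, (zmul (x, ρ) : ℝ) ≤ C * (((x.1 : ℕ) : ℝ) * T) ^ (2 : ℕ)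

/-- Bound for the number of spaced zeros ((4) + (5)). -/
def RBound (C d0 M0 : ℝ) : Prop :=
  ∀ Q : ℝ, 1 ≤ Q → ∀ T : ℝ, 3 ≤ T → ∀ d : ℝ, 0 ≤ d → d ≤ d0 →
    ∀ J : Finset (CharIdx × ℂ),
      (∀ x ∈ J, InRegion Q T d x ∧ Lf x.1 x.2 = 0 ∧
        ((x.1.1 : ℕ) = 1 → C * Real.exp (C * d * MM M0 Q T d) ≤ |x.2.im|)) →
      Set.InjOn (fun x : CharIdx × ℂ => (x.1, ⌊MM M0 Q T d * x.2.im⌋)) (J : Set (CharIdx × ℂ)) →
      (J.card : ℝ) ≤ C * Real.exp (C * d * MM M0 Q T d)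

end Vale.Agent.P026.H267
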