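import Mathlib
import Vale.Agent.P026.H267.Defs

open Finset

namespace Vale.Agent.P026.H267

open Vale.Agent.P026.H392 (LL MM)

lemma card_char_le {Q : ℝ} (hQ : 1 ≤ Q) (J : Finset CharIdx)
    (hJ : ∀ x ∈ J, ((x.1 : ℕ) : ℝ) ≤ Q) : (J.card : ℝ) ≤ Q ^ 2 := by
  classical
  have hfl : 0 < ⌊Q⌋₊ := (Nat.floor_pos).2 hQ
  set q0 : ℕ+ := ⟨⌊Q⌋₊, hfl⟩ with hq0
  have hsub : J ⊆ (Finset.Icc (1 : ℕ+) q0).sigma (fun _ => Finset.univ) := by
    intro x hx
    rw [Finset.mem_sigma]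
    refine ⟨?_, Finset.mem_univ _⟩
    rw [Finset.mem_Icc]
    refine ⟨one_le, ?_⟩
    rw [← PNat.coe_le_coe]
    exact Nat.le_floor (hJ x hx)
  have h1 : J.card ≤ ∑ q ∈ Finset.Icc (1 : ℕ+) q0,
      (Finset.univ : Finset (DirichletCharacter ℂ (q : ℕ))).card := by
    calc J.card ≤ ((Finset.Icc (1 : ℕ+) q0).sigma
          (fun q => (Finset.univ : Finset (DirichletCharacter ℂ (q : ℕ))))).card :=
          Finset.card_le_card hsub
      _ = _ := Finset.card_sigma _ _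
  have h2 : ∀ q ∈ Finset.Icc (1 : ℕ+) q0,
      (Finset.univ : Finset (DirichletCharacter ℂ (q : ℕ))).card ≤ ⌊Q⌋₊ := by
    intro q hq
    rw [Finset.card_univ, ← Nat.card_eq_fintype_card,
      DirichletCharacter.card_eq_totient_of_hasEnoughRootsOfUnity]
    have h3 : (q : ℕ) ≤ ⌊Q⌋₊ := by
      have := (Finset.mem_Icc.1 hq).2
      exact (PNat.coe_le_coe _ _).2 this
    exact (Nat.totient_le _).trans h3
  have h3 : J.card ≤ ⌊Q⌋₊ * ⌊Q⌋₊ := by
    refine h1.trans ((Finset.sum_le_card_nsmul _ _ _ h2).trans ?_)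
    rw [smul_eq_mul, PNat.card_Icc]
    simp [hq0]
  have h4 : (⌊Q⌋₊ : ℝ) ≤ Q := Nat.floor_le (by linarith)
  calc (J.card : ℝ) ≤ (⌊Q⌋₊ : ℝ) * ⌊Q⌋₊ := by exact_mod_cast h3
    _ ≤ Q * Q := by gcongr
    _ = Q ^ 2 := by ring

lemma sum_fiber (S : Finset (CharIdx × ℂ)) (c : CharIdx) (hS : ∀ x ∈ S, x.1 = c) :
    ∑ x ∈ S, (zmul x : ℝ) = ∑ ρ ∈ S.image Prod.snd, (zmul (c, ρ) : ℝ) := by
  classical
  rw [Finset.sum_image]
  · refine Finset.sum_congr rfl fun x hx => ?_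
    rw [← hS x hx]
  · intro x hx y hy hxy
    exact Prod.ext ((hS x hx).trans (hS y hy).symm) hxy

lemma large_case {C0 : ℝ} (hC0 : 0 ≤ C0) (hT : TrivCount C0) {Q T d : ℝ} (hQ : 1 ≤ Q)
    (hT3 : 3 ≤ T) (hd : d ≤ 1 / 4) (S : Finset (CharIdx × ℂ)) (hS : ∀ x ∈ S, InRegion Q T d x) :
    ∑ x ∈ S, (zmul x : ℝ) ≤ Q ^ 2 * (C0 * (Q * T) ^ 2) := by
  classical
  have h1 : ∑ x ∈ S, (zmul x : ℝ)
      = ∑ c ∈ S.image Prod.fst, ∑ x ∈ S.filter (fun x => x.1 = c), (zmul x : ℝ) := by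
    rw [Finset.sum_fiberwise_of_maps_to]
    intro x hx
    exact Finset.mem_image_of_mem _ hx
  have h2 : ∀ c ∈ S.image Prod.fst, ∑ x ∈ S.filter (fun x => x.1 = c), (zmul x : ℝ)
      ≤ C0 * (Q * T) ^ 2 := by
    intro c hc
    obtain ⟨x, hx, rfl⟩ := Finset.mem_image.1 hc
    obtain ⟨hq, hprim, _, _⟩ := hS x hx
    rw [sum_fiber _ x.1 (fun y hy => (Finset.mem_filter.1 hy).2)]
    refine (hT x.1 hprim T hT3 _ ?_).trans ?_
    · intro ρ hρ
      obtain ⟨y, hy, rfl⟩ := Finset.mem_image.1 hρ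
      obtain ⟨_, _, h3, h4⟩ := hS y (Finset.mem_filter.1 hy).1
      exact ⟨by linarith, h4⟩
    · gcongr
  have h3 : ((S.image Prod.fst).card : ℝ) ≤ Q ^ 2 := by
    apply card_char_le hQ
    intro c hc
    obtain ⟨x, hx, rfl⟩ := Finset.mem_image.1 hc
    exact (hS x hx).1
  calc ∑ x ∈ S, (zmul x : ℝ) ≤ (S.image Prod.fst).card • (C0 * (Q * T) ^ 2) := by
        rw [h1]
        exact Finset.sum_le_card_nsmul _ _ _ h2
    _ = ((S.image Prod.fst).card : ℝ) * (C0 * (Q * T) ^ 2) := by rw [nsmul_eq_mul]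
    _ ≤ Q ^ 2 * (C0 * (Q * T) ^ 2) := by gcongr

lemma loglog_pos {T : ℝ} (hT : 3 ≤ T) : 0 < Real.log (Real.log T) := by
  have h1 : 1 < Real.log T := by
    rw [Real.lt_log_iff_exp_lt (by linarith)]
    have := Real.exp_one_lt_d9
    linarith
  exact Real.log_pos h1

lemma one_lt_log {T : ℝ} (hT : 3 ≤ T) : 1 < Real.log T := by
  rw [Real.lt_log_iff_exp_lt (by linarith)]
  have := Real.exp_one_lt_d9
  linarith

lemma LL_ge_log {Q T : ℝ} (hT : 3 ≤ T) : Real.log Q ≤ LL Q T := by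
  unfold LL
  have h1 := one_lt_log hT
  have h2 := loglog_pos hT
  have : 0 ≤ Real.log T ^ (2 / 3 : ℝ) * Real.log (Real.log T) ^ (1 / 3 : ℝ) := by positivity
  linarith

lemma LL_nonneg {Q T : ℝ} (hQ : 1 ≤ Q) (hT : 3 ≤ T) : 0 ≤ LL Q T :=
  (Real.log_nonneg hQ).trans (LL_ge_log hT)

lemma LL_le_MM {M0 Q T d : ℝ} (hM : 0 ≤ M0) (hT : 3 ≤ T) : LL Q T ≤ MM M0 Q T d := by
  unfold MM
  have h1 := one_lt_log hT
  have : 0 ≤ Real.sqrt d * Real.log T := by positivity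
  linarith

lemma M0_le_MM {M0 Q T d : ℝ} (hQ : 1 ≤ Q) (hT : 3 ≤ T) : M0 ≤ MM M0 Q T d := by
  unfold MM
  have h1 := one_lt_log hT
  have h2 := LL_nonneg hQ hT
  have : 0 ≤ Real.sqrt d * Real.log T := by positivity
  linarith

/-- The exponent of the theorem. -/
noncomputable def EE (Q T d : ℝ) : ℝ := d * LL Q T + d ^ (3 / 2 : ℝ) * Real.log T

lemma d_mul_MM {M0 Q T d : ℝ} (hd : 0 ≤ d) : d * MM M0 Q T d = EE Q T d + d * M0 := by
  unfold EE MM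
  have : d ^ (3 / 2 : ℝ) = d * Real.sqrt d := by
    rw [Real.sqrt_eq_rpow]
    rcases hd.eq_or_lt with h | h
    · rw [← h]; simp
    · rw [show (3 / 2 : ℝ) = 1 + 1 / 2 by norm_num, Real.rpow_add h, Real.rpow_one]
  rw [this]
  ring

lemma EE_nonneg {Q T d : ℝ} (hQ : 1 ≤ Q) (hT : 3 ≤ T) (hd : 0 ≤ d) : 0 ≤ EE Q T d := by
  unfold EE
  have h1 := one_lt_log hT
  have h2 := LL_nonneg hQ hT
  positivity

lemma zmul_ne_zero {x : CharIdx × ℂ} (hx : zmul x ≠ 0) (hp : x.1.2.IsPrimitive) :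
    Lf x.1 x.2 = 0 ∧ x.2.re < 1 := by
  have h0 : Lf x.1 x.2 = 0 := apply_eq_zero_of_analyticOrderNatAt_ne_zero hx
  refine ⟨h0, ?_⟩
  by_contra hre
  push Not at hre
  by_cases hc : x.1.2 ≠ 1 ∨ x.2 ≠ 1
  · exact DirichletCharacter.LFunction_ne_zero_of_one_le_re x.1.2 hc hre h0
  · push Not at hc
    obtain ⟨h1, h2⟩ := hc
    obtain ⟨⟨q, χ⟩, ρ⟩ := x
    simp only at h1 h2 hp h0
    have hq : (q : ℕ) = 1 := by
      rw [DirichletCharacter.isPrimitive_def, h1, DirichletCharacter.conductor_one] at hp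
      exact hp.symm
    have hq' : q = 1 := PNat.coe_eq_one_iff.1 hq
    subst hq'
    rw [h2] at h0
    have : DirichletCharacter.LFunction χ 1 = riemannZeta 1 := by
      have := DirichletCharacter.LFunction_modOne_eq (χ := χ)
      exact congrFun this 1
    change DirichletCharacter.LFunction χ 1 = 0 at h0
    rw [this] at h0
    exact riemannZeta_one_ne_zero h0

/-- `1/√(log log 3)`. -/
noncomputable def k3 : ℝ := 1 / Real.log (Real.log 3) ^ (1 / 2 : ℝ)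

lemma k3_nonneg : 0 ≤ k3 := by
  have := loglog_pos (T := 3) le_rfl
  unfold k3; positivity

lemma log_le_LL_rpow {Q T : ℝ} (hQ : 1 ≤ Q) (hT : 3 ≤ T) :
    Real.log T ≤ k3 * LL Q T ^ (3 / 2 : ℝ) := by
  have hl3 : 0 < Real.log (Real.log 3) := loglog_pos le_rfl
  have hlT := one_lt_log hT
  have hll := loglog_pos hT
  have h3 : (Real.log T ^ (2 / 3 : ℝ) * Real.log (Real.log T) ^ (1 / 3 : ℝ)) ^ (3 / 2 : ℝ)
      = Real.log T * Real.log (Real.log T) ^ (1 / 2 : ℝ) := by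
    rw [Real.mul_rpow (by positivity) (by positivity), ← Real.rpow_mul (by linarith),
      ← Real.rpow_mul hll.le]
    norm_num
  have h4 : Real.log T * Real.log (Real.log T) ^ (1 / 2 : ℝ) ≤ LL Q T ^ (3 / 2 : ℝ) := by
    rw [← h3]
    apply Real.rpow_le_rpow (by positivity) _ (by norm_num)
    unfold LL
    have := Real.log_nonneg hQ
    linarith
  have h5 : Real.log (Real.log 3) ^ (1 / 2 : ℝ) ≤ Real.log (Real.log T) ^ (1 / 2 : ℝ) := by
    apply Real.rpow_le_rpow hl3.le _ (by norm_num)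
    apply Real.log_le_log (by have := one_lt_log (T := 3) le_rfl; linarith)
    exact Real.log_le_log (by norm_num) hT
  unfold k3
  rw [div_mul_eq_mul_div, one_mul, le_div_iff₀ (by positivity)]
  calc Real.log T * Real.log (Real.log 3) ^ (1 / 2 : ℝ)
      ≤ Real.log T * Real.log (Real.log T) ^ (1 / 2 : ℝ) := by gcongr
    _ ≤ LL Q T ^ (3 / 2 : ℝ) := h4

lemma add_rpow_le {a b : ℝ} (ha : 0 ≤ a) (hb : 0 ≤ b) :
    (a + b) ^ (3 / 2 : ℝ) ≤ 4 * (a ^ (3 / 2 : ℝ) + b ^ (3 / 2 : ℝ)) := by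
  have h2 : (2 : ℝ) ^ (3 / 2 : ℝ) ≤ 4 := by
    calc (2 : ℝ) ^ (3 / 2 : ℝ) ≤ 2 ^ (2 : ℝ) :=
          Real.rpow_le_rpow_of_exponent_le (by norm_num) (by norm_num)
      _ = 4 := by norm_num
  have ha' : 0 ≤ a ^ (3 / 2 : ℝ) := by positivity
  have hb' : 0 ≤ b ^ (3 / 2 : ℝ) := by positivity
  rcases le_total a b with h | h
  · calc (a + b) ^ (3 / 2 : ℝ) ≤ (2 * b) ^ (3 / 2 : ℝ) :=
          Real.rpow_le_rpow (by linarith) (by linarith) (by norm_num)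
      _ = 2 ^ (3 / 2 : ℝ) * b ^ (3 / 2 : ℝ) := Real.mul_rpow (by norm_num) hb
      _ ≤ 4 * b ^ (3 / 2 : ℝ) := by gcongr
      _ ≤ _ := by linarith
  · calc (a + b) ^ (3 / 2 : ℝ) ≤ (2 * a) ^ (3 / 2 : ℝ) :=
          Real.rpow_le_rpow (by linarith) (by linarith) (by norm_num)
      _ = 2 ^ (3 / 2 : ℝ) * a ^ (3 / 2 : ℝ) := Real.mul_rpow (by norm_num) ha
      _ ≤ 4 * a ^ (3 / 2 : ℝ) := by gcongr
      _ ≤ _ := by linarith

lemma small_case {C0 C1 C2 d0 M0 : ℝ} (hC0 : 0 ≤ C0) (hT : TrivCount C0) (hC1 : 0 ≤ C1)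
    (hL : LocalCount C1) (hC2 : 1 ≤ C2) (hR : RBound C2 d0 M0) (hM0 : 8 ≤ M0) (hd0 : d0 ≤ 1 / 8)
    {Q T d : ℝ} (hQ : 1 ≤ Q) (hT3 : 3 ≤ T) (hd : 0 ≤ d) (hdd : d ≤ d0)
    (S : Finset (CharIdx × ℂ)) (hS : ∀ x ∈ S, InRegion Q T d x) :
    ∑ x ∈ S, (zmul x : ℝ) ≤
      C2 * Real.exp (C2 * d * MM M0 Q T d) * (C1 * (2 + 4 * k3 + 5 * (d * MM M0 Q T d))) +
      C0 * (3 + C2 * Real.exp (C2 * d * MM M0 Q T d)) ^ 2 := by
  classical
  set M : ℝ := MM M0 Q T d with hM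
  have hM8 : 8 ≤ M := hM0.trans (M0_le_MM hQ hT3)
  have hMpos : 0 < M := by linarith
  set Γ : ℝ := C2 * Real.exp (C2 * d * M) with hΓ
  have hΓ1 : 1 ≤ Γ := by
    have h1 : (1 : ℝ) ≤ Real.exp (C2 * d * M) := Real.one_le_exp (by positivity)
    nlinarith
  have hΓ0 : 0 ≤ Γ := by linarith
  set S1 := S.filter (fun x => (x.1.1 : ℕ) = 1 ∧ |x.2.im| < Γ) with hS1
  set S2 := (S.filter (fun x => ¬ ((x.1.1 : ℕ) = 1 ∧ |x.2.im| < Γ))).filter
    (fun x => zmul x ≠ 0) with hS2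
  have hsplit : ∑ x ∈ S, (zmul x : ℝ) = ∑ x ∈ S1, (zmul x : ℝ) + ∑ x ∈ S2, (zmul x : ℝ) := by
    rw [hS1, hS2, ← Finset.sum_filter_add_sum_filter_not S
      (fun x => (x.1.1 : ℕ) = 1 ∧ |x.2.im| < Γ)]
    congr 1
    symm
    apply Finset.sum_subset (Finset.filter_subset _ _)
    intro x hx hx2
    have : zmul x = 0 := by
      by_contra hcon
      exact hx2 (Finset.mem_filter.2 ⟨hx, hcon⟩)
    simp [this]
  -- zeros of zeta near the real axis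
  have hb1 : ∑ x ∈ S1, (zmul x : ℝ) ≤ C0 * (3 + Γ) ^ 2 := by
    have h1 : ∀ x ∈ S1, InRegion 1 (3 + Γ) d x := by
      intro x hx
      rw [hS1, Finset.mem_filter] at hx
      obtain ⟨_, h3, h4, _⟩ := hS x hx.1
      refine ⟨by rw [hx.2.1]; simp, h3, h4, ?_⟩
      have := hx.2.2
      linarith
    have h2 := large_case hC0 hT le_rfl (by linarith) (by linarith) S1 h1
    rw [one_pow, one_mul, one_mul] at h2
    exact h2
  -- the other zeros
  set b : CharIdx × ℂ → CharIdx × ℤ := fun x => (x.1, ⌊M * x.2.im⌋) with hb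
  set I := S2.image b with hI
  have hex : ∀ y ∈ I, ∃ x ∈ S2, b x = y := fun y hy => by
    obtain ⟨x, hx, hxy⟩ := Finset.mem_image.1 hy
    exact ⟨x, hx, hxy⟩
  choose! rep hrep1 hrep2 using hex
  have hinj : Set.InjOn rep (I : Set (CharIdx × ℤ)) := by
    intro y hy y' hy' h
    rw [← hrep2 y hy, ← hrep2 y' hy', h]
  have hS2zero : ∀ x ∈ S2, InRegion Q T d x ∧ Lf x.1 x.2 = 0 ∧ x.2.re < 1 ∧
      ((x.1.1 : ℕ) = 1 → C2 * Real.exp (C2 * d * M) ≤ |x.2.im|) := by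
    intro x hx
    rw [hS2, Finset.mem_filter, Finset.mem_filter] at hx
    obtain ⟨⟨hxS, h1⟩, h2⟩ := hx
    have h3 := hS x hxS
    have h4 := zmul_ne_zero h2 h3.2.1
    refine ⟨h3, h4.1, h4.2, fun h5 => ?_⟩
    by_contra hcon
    push Not at hcon
    exact h1 ⟨h5, hcon⟩
  have hcard : ((I.image rep).card : ℝ) ≤ C2 * Real.exp (C2 * d * M) := by
    apply hR Q hQ T hT3 d hd hdd (I.image rep)
    · intro x hx
      obtain ⟨y, hy, rfl⟩ := Finset.mem_image.1 hx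
      have h1 := hS2zero _ (hrep1 y hy)
      exact ⟨h1.1, h1.2.1, h1.2.2.2⟩
    · intro x hx x' hx' h
      rw [Finset.mem_coe] at hx hx'
      obtain ⟨y, hy, rfl⟩ := Finset.mem_image.1 hx
      obtain ⟨y', hy', rfl⟩ := Finset.mem_image.1 hx'
      have h2 : b (rep y) = b (rep y') := h
      rw [hrep2 y hy, hrep2 y' hy'] at h2
      rw [h2]
  rw [Finset.card_image_of_injOn hinj] at hcard
  have hfib : ∀ y ∈ I, ∑ x ∈ S2.filter (fun x => b x = y), (zmul x : ℝ)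
      ≤ C1 * (2 + 4 * k3 + 5 * (d * M)) := by
    intro y hy
    have hry := hrep1 y hy
    have hrb := hrep2 y hy
    obtain ⟨hreg, _, _, hreg4⟩ := hS2zero _ hry
    have hMle : 1 / M ≤ 1 / 8 := by
      apply one_div_le_one_div_of_le (by norm_num) hM8
    have hM1 : 0 < 1 / M := by positivity
    rw [sum_fiber _ y.1 (fun x hx => by rw [← (Finset.mem_filter.1 hx).2])]
    refine (hL Q hQ T hT3 y.1 ?_ ?_ (rep y).2.im hreg.2.2.2 ?_ (d + 1 / M) (by positivity)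
      (by linarith) _ ?_).trans ?_
    · have : (rep y).1 = y.1 := congrArg Prod.fst hrb
      rw [← this]; exact hreg.1
    · have : (rep y).1 = y.1 := congrArg Prod.fst hrb
      rw [← this]; exact hreg.2.1
    · intro hy1
      have : (rep y).1 = y.1 := congrArg Prod.fst hrb
      rw [← this] at hy1
      exact hΓ1.trans (hreg4 hy1)
    · intro ρ hρ
      obtain ⟨x, hx, rfl⟩ := Finset.mem_image.1 hρ
      rw [Finset.mem_filter] at hx
      obtain ⟨hxreg, _, hx1, _⟩ := hS2zero x hx.1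
      have hfl : ⌊M * x.2.im⌋ = ⌊M * (rep y).2.im⌋ := by
        have h1 : b x = b (rep y) := by rw [hx.2, hrb]
        exact congrArg Prod.snd h1
      have habs : |M * x.2.im - M * (rep y).2.im| < 1 := Int.abs_sub_lt_one_of_floor_eq_floor hfl
      have him : |x.2.im - (rep y).2.im| ≤ 1 / M := by
        rw [← mul_sub, abs_mul, abs_of_pos hMpos] at habs
        rw [le_div_iff₀ hMpos]
        linarith
      have hre : |x.2.re - 1| ≤ d := by
        have h5 : 1 - d ≤ x.2.re := hxreg.2.2.1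
        rw [abs_le]
        constructor <;> linarith
      have h6 : ‖x.2 - (1 + (((rep y).2.im : ℝ) : ℂ) * Complex.I)‖
          ≤ |(x.2 - (1 + (((rep y).2.im : ℝ) : ℂ) * Complex.I)).re|
            + |(x.2 - (1 + (((rep y).2.im : ℝ) : ℂ) * Complex.I)).im| :=
        Complex.norm_le_abs_re_add_abs_im _
      have h7 : (x.2 - (1 + (((rep y).2.im : ℝ) : ℂ) * Complex.I)).re = x.2.re - 1 := by simp
      have h8 : (x.2 - (1 + (((rep y).2.im : ℝ) : ℂ) * Complex.I)).im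
          = x.2.im - (rep y).2.im := by simp
      rw [h7, h8] at h6
      linarith
    · have hLL := LL_le_MM (Q := Q) (T := T) (d := d) (M0 := M0) (by linarith) hT3
      have hLL0 := LL_nonneg hQ hT3
      have h9 : 1 / M * LL Q T ≤ 1 := by
        rw [div_mul_eq_mul_div, one_mul, div_le_one hMpos]
        exact hLL
      have h10 : d * LL Q T ≤ d * M := by gcongr
      have h11 : (d + 1 / M) * LL Q T ≤ d * M + 1 := by
        rw [add_mul]; linarith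
      have hlT := one_lt_log hT3
      have h12 : (d + 1 / M) ^ (3 / 2 : ℝ) * Real.log T ≤ 4 * (d * M) + 4 * k3 := by
        have h13 := add_rpow_le hd hM1.le
        have h14 : (1 / M) ^ (3 / 2 : ℝ) * Real.log T ≤ k3 := by
          rw [Real.div_rpow zero_le_one hMpos.le, Real.one_rpow, div_mul_eq_mul_div, one_mul,
            div_le_iff₀ (by positivity)]
          refine (log_le_LL_rpow hQ hT3).trans ?_
          have := k3_nonneg
          gcongr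
        have h15 : d ^ (3 / 2 : ℝ) * Real.log T ≤ d * M := by
          have h16 := d_mul_MM (M0 := M0) (Q := Q) (T := T) hd
          rw [← hM] at h16
          rw [h16]
          unfold EE
          have h17 : 0 ≤ d * LL Q T := by positivity
          have h18 : 0 ≤ d * M0 := mul_nonneg hd (by linarith)
          linarith
        calc (d + 1 / M) ^ (3 / 2 : ℝ) * Real.log T
            ≤ 4 * (d ^ (3 / 2 : ℝ) + (1 / M) ^ (3 / 2 : ℝ)) * Real.log T := by gcongr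
          _ = 4 * (d ^ (3 / 2 : ℝ) * Real.log T) + 4 * ((1 / M) ^ (3 / 2 : ℝ) * Real.log T) := by
              ring
          _ ≤ 4 * (d * M) + 4 * k3 := by gcongr
      calc C1 * (1 + (d + 1 / M) * LL Q T + (d + 1 / M) ^ (3 / 2 : ℝ) * Real.log T)
          ≤ C1 * (1 + (d * M + 1) + (4 * (d * M) + 4 * k3)) := by gcongr
        _ = C1 * (2 + 4 * k3 + 5 * (d * M)) := by ring
  have hb2 : ∑ x ∈ S2, (zmul x : ℝ)
      ≤ C2 * Real.exp (C2 * d * M) * (C1 * (2 + 4 * k3 + 5 * (d * M))) := by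
    have hk3 := k3_nonneg
    have h1 : ∑ x ∈ S2, (zmul x : ℝ)
        = ∑ y ∈ I, ∑ x ∈ S2.filter (fun x => b x = y), (zmul x : ℝ) := by
      rw [Finset.sum_fiberwise_of_maps_to]
      intro x hx
      exact Finset.mem_image_of_mem _ hx
    calc ∑ x ∈ S2, (zmul x : ℝ) ≤ I.card • (C1 * (2 + 4 * k3 + 5 * (d * M))) := by
          rw [h1]
          exact Finset.sum_le_card_nsmul _ _ _ hfib
      _ = (I.card : ℝ) * (C1 * (2 + 4 * k3 + 5 * (d * M))) := by rw [nsmul_eq_mul]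
      _ ≤ _ := by gcongr
  rw [hsplit]
  linarith

lemma real_small {C0 C1 C2 k E M0 x : ℝ} (hC0 : 0 ≤ C0) (hC1 : 0 ≤ C1) (hC2 : 1 ≤ C2)
    (hk : 0 ≤ k) (hx0 : 0 ≤ x) (hx : x ≤ E + M0) :
    C2 * Real.exp (C2 * x) * (C1 * (2 + 4 * k + 5 * x)) + C0 * (3 + C2 * Real.exp (C2 * x)) ^ 2
      ≤ ((2 + 4 * k + 5) * C1 * C2 + C0 * (3 + C2) ^ 2) * Real.exp ((2 * C2 + 1) * M0)
        * Real.exp ((2 * C2 + 1) * E) := by
  have e1 : (1 : ℝ) ≤ Real.exp (C2 * x) := Real.one_le_exp (by positivity)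
  have e2 : 2 + 4 * k + 5 * x ≤ (2 + 4 * k + 5) * Real.exp x := by
    have h3 := Real.add_one_le_exp x
    have h4 : 0 ≤ (2 + 4 * k) * (Real.exp x - 1) := mul_nonneg (by linarith) (by linarith)
    linarith
  have e3 : 3 + C2 * Real.exp (C2 * x) ≤ (3 + C2) * Real.exp (C2 * x) := by
    linarith
  have hCx : C2 * x + x ≤ (2 * C2 + 1) * x := by nlinarith
  have hCx2 : 2 * (C2 * x) ≤ (2 * C2 + 1) * x := by nlinarith
  have hx3 : (2 * C2 + 1) * x ≤ (2 * C2 + 1) * M0 + (2 * C2 + 1) * E := by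
    rw [← mul_add]
    exact mul_le_mul_of_nonneg_left (by linarith) (by linarith)
  have e4 : Real.exp (C2 * x) * Real.exp x
      ≤ Real.exp ((2 * C2 + 1) * M0) * Real.exp ((2 * C2 + 1) * E) := by
    rw [← Real.exp_add, ← Real.exp_add]
    exact Real.exp_le_exp.2 (hCx.trans hx3)
  have e5 : Real.exp (C2 * x) ^ 2
      ≤ Real.exp ((2 * C2 + 1) * M0) * Real.exp ((2 * C2 + 1) * E) := by
    rw [← Real.exp_nat_mul, ← Real.exp_add]
    apply Real.exp_le_exp.2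
    push_cast
    exact hCx2.trans hx3
  set Y := Real.exp ((2 * C2 + 1) * M0) * Real.exp ((2 * C2 + 1) * E)
  have hC20 : 0 ≤ C2 := by linarith
  calc C2 * Real.exp (C2 * x) * (C1 * (2 + 4 * k + 5 * x)) +
        C0 * (3 + C2 * Real.exp (C2 * x)) ^ 2
      ≤ C2 * Real.exp (C2 * x) * (C1 * ((2 + 4 * k + 5) * Real.exp x)) +
        C0 * ((3 + C2) * Real.exp (C2 * x)) ^ 2 := by gcongr
    _ = (2 + 4 * k + 5) * C1 * C2 * (Real.exp (C2 * x) * Real.exp x) +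
        C0 * (3 + C2) ^ 2 * Real.exp (C2 * x) ^ 2 := by ring
    _ ≤ (2 + 4 * k + 5) * C1 * C2 * Y + C0 * (3 + C2) ^ 2 * Y := by gcongr
    _ = _ := by ring

lemma real_large {C0 a Q T d d1 : ℝ} (hd1pos : 0 < d1) (hd1 : d1 ≤ 1 / 8)
    (ha : a = d1 ^ (3 / 2 : ℝ)) (hQ : 1 ≤ Q) (hT3 : 3 ≤ T) (hdd : d1 < d) (hC0 : 0 ≤ C0) :
    Q ^ 2 * (C0 * (Q * T) ^ 2) ≤ C0 * Real.exp (4 / a * EE Q T d) := by
  have ha0 : 0 < a := by rw [ha]; positivity
  have hlogT := one_lt_log hT3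
  have hlogQ := Real.log_nonneg hQ
  have hLL := LL_ge_log (Q := Q) hT3
  have hd : 0 ≤ d := by linarith
  have ha1 : a ≤ d1 := by
    rw [ha]
    calc d1 ^ (3 / 2 : ℝ) ≤ d1 ^ (1 : ℝ) :=
          Real.rpow_le_rpow_of_exponent_ge hd1pos (by linarith) (by norm_num)
      _ = d1 := Real.rpow_one _
  have hda : a ≤ d ^ (3 / 2 : ℝ) := by
    rw [ha]
    exact Real.rpow_le_rpow hd1pos.le hdd.le (by norm_num)
  have hE : a * (Real.log Q + Real.log T) ≤ EE Q T d := by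
    unfold EE
    have h2 : a * Real.log Q ≤ d * LL Q T := mul_le_mul (ha1.trans hdd.le) hLL hlogQ hd
    have h3 : a * Real.log T ≤ d ^ (3 / 2 : ℝ) * Real.log T :=
      mul_le_mul_of_nonneg_right hda (by linarith)
    rw [mul_add]
    linarith
  have hQ0 : 0 < Q := by linarith
  have hT0 : 0 < T := by linarith
  have h5 : Q ^ 2 * (Q * T) ^ 2 ≤ Real.exp (4 / a * EE Q T d) := by
    have h6 : Q ^ 2 * (Q * T) ^ 2 = Real.exp (4 * Real.log Q + 2 * Real.log T) := by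
      rw [Real.exp_add, show (4 : ℝ) = ((4 : ℕ) : ℝ) by norm_num,
        show (2 : ℝ) = ((2 : ℕ) : ℝ) by norm_num, Real.exp_nat_mul, Real.exp_nat_mul,
        Real.exp_log hQ0, Real.exp_log hT0]
      ring
    rw [h6]
    apply Real.exp_le_exp.2
    rw [div_mul_eq_mul_div, le_div_iff₀ ha0]
    nlinarith
  calc Q ^ 2 * (C0 * (Q * T) ^ 2) = C0 * (Q ^ 2 * (Q * T) ^ 2) := by ring
    _ ≤ C0 * Real.exp (4 / a * EE Q T d) := mul_le_mul_of_nonneg_left h5 hC0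

/-- **Assembly** (finite form). -/
theorem main_finite (hT : ∃ C, TrivCount C) (hL : ∃ C, LocalCount C)
    (hR : ∃ C d0 M0, 0 < d0 ∧ 8 ≤ M0 ∧ RBound C d0 M0) :
    ∃ C : ℝ, 0 < C ∧ ∀ Q : ℝ, 1 ≤ Q → ∀ T : ℝ, 3 ≤ T → ∀ d : ℝ, 0 ≤ d → d ≤ 1 / 4 →
      ∀ S : Finset (CharIdx × ℂ), (∀ x ∈ S, InRegion Q T d x) →
        ∑ x ∈ S, (zmul x : ℝ) ≤ C * Real.exp (C * EE Q T d) := by
  obtain ⟨C0', hT'⟩ := hT
  obtain ⟨C1', hL'⟩ := hL
  obtain ⟨C2', d0', M0, hd0', hM0, hR'⟩ := hR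
  obtain ⟨C0, hC0, hT⟩ : ∃ C0, 0 ≤ C0 ∧ TrivCount C0 :=
    ⟨max C0' 0, le_max_right _ _, fun x hx T hT S hS =>
      (hT' x hx T hT S hS).trans (mul_le_mul_of_nonneg_right (le_max_left _ _) (sq_nonneg _))⟩
  obtain ⟨C1, hC1, hL⟩ : ∃ C1, 0 ≤ C1 ∧ LocalCount C1 :=
    ⟨max C1' 0, le_max_right _ _, fun Q hQ T hT x hx hp t ht hq1 r hr0 hr S hS =>
      (hL' Q hQ T hT x hx hp t ht hq1 r hr0 hr S hS).trans (mul_le_mul_of_nonneg_right
        (le_max_left _ _) (by have := LL_nonneg hQ hT; have := one_lt_log hT; positivity))⟩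
  have hC2' : 0 ≤ C2' := by
    have h := hR' 1 le_rfl 3 le_rfl 0 le_rfl hd0'.le ∅ (by simp) (by simp)
    simp at h
    exact h
  obtain ⟨C2, hC21, hC2le⟩ : ∃ C2 : ℝ, 1 ≤ C2 ∧ C2' ≤ C2 :=
    ⟨max C2' 1, le_max_right _ _, le_max_left _ _⟩
  have hC2 : 0 ≤ C2 := by linarith
  have hk3 := k3_nonneg
  obtain ⟨d1, hd1pos, hd1le, hd1d0⟩ : ∃ d1 : ℝ, 0 < d1 ∧ d1 ≤ 1 / 8 ∧ d1 ≤ d0' :=
    ⟨min d0' (1 / 8), lt_min hd0' (by norm_num), min_le_right _ _, min_le_left _ _⟩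
  have hR : RBound C2 d1 M0 := by
    intro Q hQ T hT d hd hdd J hJ hinj
    have hM : 0 ≤ MM M0 Q T d := by
      have := M0_le_MM (M0 := M0) (d := d) hQ hT
      linarith
    have hmono : C2' * Real.exp (C2' * d * MM M0 Q T d) ≤ C2 * Real.exp (C2 * d * MM M0 Q T d) := by
      gcongr
    exact (hR' Q hQ T hT d hd (hdd.trans hd1d0) J
      (fun x hx => ⟨(hJ x hx).1, (hJ x hx).2.1, fun hq => hmono.trans ((hJ x hx).2.2 hq)⟩)
      hinj).trans hmono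
  obtain ⟨K, hK⟩ : ∃ K : ℝ, K = ((2 + 4 * k3 + 5) * C1 * C2 + C0 * (3 + C2) ^ 2)
      * Real.exp ((2 * C2 + 1) * M0) := ⟨_, rfl⟩
  have hK0 : 0 ≤ K := by rw [hK]; positivity
  obtain ⟨a, ha⟩ : ∃ a : ℝ, a = d1 ^ (3 / 2 : ℝ) := ⟨_, rfl⟩
  have ha0 : 0 < a := by rw [ha]; positivity
  have h4a : 0 ≤ 4 / a := by positivity
  obtain ⟨C, hCpos, hCK, hCc, hCC0, hCa⟩ : ∃ C : ℝ, 0 < C ∧ K ≤ C ∧ 2 * C2 + 1 ≤ C ∧ C0 ≤ C ∧
      4 / a ≤ C := by
    refine ⟨1 + K + (2 * C2 + 1) + C0 + 4 / a, by positivity, ?_, ?_, ?_, ?_⟩ <;> linarith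
  refine ⟨C, hCpos, ?_⟩
  intro Q hQ T hT3 d hd hd4 S hS
  have hE0 : 0 ≤ EE Q T d := EE_nonneg hQ hT3 hd
  rcases le_or_gt d d1 with hdd | hdd
  · have h1 := small_case hC0 hT hC1 hL hC21 hR hM0 hd1le hQ hT3 hd hdd S hS
    have hdM : d * MM M0 Q T d = EE Q T d + d * M0 := d_mul_MM hd
    have hdM0 : 0 ≤ d * MM M0 Q T d := by
      rw [hdM]
      exact add_nonneg hE0 (mul_nonneg hd (by linarith))
    have hdM1 : d * MM M0 Q T d ≤ EE Q T d + M0 := by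
      rw [hdM]
      have : d * M0 ≤ 1 * M0 := mul_le_mul_of_nonneg_right (by linarith) (by linarith)
      linarith
    have h2 := real_small hC0 hC1 hC21 hk3 hdM0 hdM1
    rw [← hK] at h2
    rw [mul_assoc C2 d] at h1
    exact h1.trans (h2.trans (mul_le_mul hCK
      (Real.exp_le_exp.2 (mul_le_mul_of_nonneg_right hCc hE0)) (Real.exp_pos _).le hCpos.le))
  · have h1 := large_case hC0 hT hQ hT3 hd4 S hS
    refine h1.trans ((real_large hd1pos hd1le ha hQ hT3 hdd hC0).trans ?_)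
    exact mul_le_mul hCC0 (Real.exp_le_exp.2 (mul_le_mul_of_nonneg_right hCa hE0))
      (Real.exp_pos _).le hCpos.le

end Vale.Agent.P026.H267
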