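import Mathlib
import Vale.Agent.P026.H267.Assemble

open Finset

namespace Vale.Agent.P026.H267

open Vale.Agent.P026.H392 (LL MM)

lemma analyticOnNhd_Lf (c : CharIdx) : AnalyticOnNhd ℂ (Lf c) ({1}ᶜ : Set ℂ) := by
  apply DifferentiableOn.analyticOnNhd _ isOpen_compl_singleton
  intro s hs
  exact (DirichletCharacter.differentiableAt_LFunction c.2 s (Or.inl hs)).differentiableWithinAt

lemma zord_ne_top (x : CharIdx × ℂ) : zord x ≠ ⊤ := by
  intro htop
  unfold zord at htop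
  rw [analyticOrderAt_eq_top] at htop
  have hU : IsPreconnected ({1}ᶜ : Set ℂ) :=
    (isConnected_compl_singleton_of_one_lt_rank
      (by rw [Complex.rank_real_complex]; norm_num) (1 : ℂ)).isPreconnected
  have h1 : ∀ᶠ z in nhds x.2, ∀ᶠ w in nhds z, Lf x.1 w = 0 := htop.eventually_nhds
  have h2 : ∃ᶠ z in nhdsWithin x.2 {x.2}ᶜ, z ≠ 1 ∧ ∀ᶠ w in nhds z, Lf x.1 w = 0 := by
    apply Filter.Eventually.frequently
    have h3 : ∀ᶠ z in nhdsWithin x.2 {x.2}ᶜ, ∀ᶠ w in nhds z, Lf x.1 w = 0 :=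
      h1.filter_mono nhdsWithin_le_nhds
    have h4 : ∀ᶠ z in nhdsWithin x.2 {x.2}ᶜ, z ≠ 1 := by
      by_cases hx : x.2 = 1
      · rw [hx]; exact self_mem_nhdsWithin
      · exact (isOpen_ne.mem_nhds hx : _) |> fun h => nhdsWithin_le_nhds h
    filter_upwards [h3, h4] with z hz hz' using ⟨hz', hz⟩
  obtain ⟨z, hz1, hz2⟩ := h2.exists
  have h5 := (analyticOnNhd_Lf x.1).eqOn_zero_of_preconnected_of_eventuallyEq_zero hU
    (by simpa using hz1 : z ∈ ({1}ᶜ : Set ℂ)) hz2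
  have h6 : Lf x.1 2 = 0 := h5 (by simp)
  have h7 : DirichletCharacter.LFunction x.1.2 2 ≠ 0 :=
    DirichletCharacter.LFunction_ne_zero_of_one_le_re x.1.2 (Or.inr (by norm_num)) (by norm_num)
  exact h7 h6

lemma zord_eq (x : CharIdx × ℂ) : zord x = (zmul x : ℕ∞) :=
  (Nat.cast_analyticOrderNatAt (zord_ne_top x)).symm

/-- Passing from finite sets to the infinite sum. -/
lemma zeroCount_le {Q T d B : ℝ}
    (h : ∀ S : Finset (CharIdx × ℂ), (∀ x ∈ S, InRegion Q T d x) →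
      ∑ x ∈ S, (zmul x : ℝ) ≤ B) : zeroCount Q T d ≤ ENNReal.ofReal B := by
  classical
  unfold zeroCount
  rw [ENNReal.tsum_eq_iSup_sum]
  apply iSup_le
  intro S
  have h1 : ∑ x ∈ S, (if InRegion Q T d x then ((zord x : ℕ∞) : ENNReal) else 0)
      = ∑ x ∈ S.filter (fun x => InRegion Q T d x), ((zmul x : ℕ) : ENNReal) := by
    rw [← Finset.sum_filter]
    refine Finset.sum_congr rfl fun x _ => ?_
    rw [zord_eq]
    simp
  have h2 := h (S.filter (fun x => InRegion Q T d x)) (fun x hx => (Finset.mem_filter.1 hx).2)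
  calc ∑ x ∈ S, (if InRegion Q T d x then ((zord x : ℕ∞) : ENNReal) else 0)
      = ENNReal.ofReal (∑ x ∈ S.filter (fun x => InRegion Q T d x), (zmul x : ℝ)) := by
        rw [h1, ENNReal.ofReal_sum_of_nonneg (fun _ _ => Nat.cast_nonneg _)]
        refine Finset.sum_congr rfl fun x _ => ?_
        rw [ENNReal.ofReal_natCast]
    _ ≤ ENNReal.ofReal B := ENNReal.ofReal_le_ofReal h2

end Vale.Agent.P026.H267
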