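import Mathlib
import Vale.Agent.P026.H267.Count

open Finset

namespace Vale.Agent.P026.H267

open Vale.Agent.P026.H392 (LL MM)

/-- Finite form of the density theorem with constant `C`. -/
def Density (C : ℝ) : Prop :=
  0 < C ∧ ∀ Q : ℝ, 1 ≤ Q → ∀ T : ℝ, 3 ≤ T → ∀ d : ℝ, 0 ≤ d → d ≤ 1 / 4 →
      ∀ S : Finset (CharIdx × ℂ), (∀ x ∈ S, InRegion Q T d x) →
        ∑ x ∈ S, (zmul x : ℝ) ≤ C * Real.exp (C * EE Q T d)

lemma LL_pos {Q T : ℝ} (hQ : 1 ≤ Q) (hT : 3 ≤ T) : 0 < LL Q T := by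
  have hlT := one_lt_log hT
  have hll := loglog_pos hT
  have h1 := Real.log_nonneg hQ
  have : 0 < Real.log T ^ (2 / 3 : ℝ) * Real.log (Real.log T) ^ (1 / 3 : ℝ) := by positivity
  unfold LL
  linarith

/-- The number of zeros in the `K`-fold Vinogradov–Korobov region is bounded (finite form). -/
theorem kfold_finite {C : ℝ} (h : Density C) (K : ℝ) (hK : 0 ≤ K) :
    ∀ Q : ℝ, 1 ≤ Q → ∀ T : ℝ, 3 ≤ T → ∀ S : Finset (CharIdx × ℂ),
      (∀ x ∈ S, InRegion Q T (min (1 / 4) (K / LL Q T)) x) →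
      ∑ x ∈ S, (zmul x : ℝ) ≤ C * Real.exp (C * (K + K ^ (3 / 2 : ℝ) * k3)) := by
  intro Q hQ T hT S hS
  have hlT := one_lt_log hT
  have hLpos := LL_pos hQ hT
  have hd0 : 0 ≤ min (1 / 4) (K / LL Q T) := le_min (by norm_num) (by positivity)
  refine (h.2 Q hQ T hT _ hd0 (min_le_left _ _) S hS).trans ?_
  have hE : EE Q T (min (1 / 4) (K / LL Q T)) ≤ K + K ^ (3 / 2 : ℝ) * k3 := by
    have hdK : min (1 / 4) (K / LL Q T) ≤ K / LL Q T := min_le_right _ _
    have h1 : K / LL Q T * LL Q T = K := by field_simp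
    have h2 : (K / LL Q T) ^ (3 / 2 : ℝ) * Real.log T ≤ K ^ (3 / 2 : ℝ) * k3 := by
      rw [Real.div_rpow hK hLpos.le, div_mul_eq_mul_div, div_le_iff₀ (by positivity), mul_assoc]
      have := log_le_LL_rpow hQ hT
      gcongr
    unfold EE
    calc min (1 / 4) (K / LL Q T) * LL Q T + min (1 / 4) (K / LL Q T) ^ (3 / 2 : ℝ) * Real.log T
        ≤ K / LL Q T * LL Q T + (K / LL Q T) ^ (3 / 2 : ℝ) * Real.log T := by gcongr
      _ ≤ K + K ^ (3 / 2 : ℝ) * k3 := by rw [h1]; linarith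
  have hC := h.1
  gcongr

/-- The number of zeros in the `K`-fold Vinogradov–Korobov region is bounded. -/
theorem kfold {C : ℝ} (h : Density C) (K : ℝ) (hK : 0 ≤ K) :
    ∃ C' : ℝ, ∀ Q : ℝ, 1 ≤ Q → ∀ T : ℝ, 3 ≤ T →
      zeroCount Q T (min (1 / 4) (K / LL Q T)) ≤ ENNReal.ofReal C' :=
  ⟨_, fun Q hQ T hT => zeroCount_le (fun S hS => kfold_finite h K hK Q hQ T hT S hS)⟩

/-- The pair `(χ, ρ)` lies in the `K`-fold Vinogradov–Korobov region at its own height:
`χ` is primitive of conductor `q`, `log q ≤ V`, `3 ≤ |Im ρ|`, `Re ρ ≥ 3/4` and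
`Re ρ ≥ 1 - K / V` with `V = (log |Im ρ|)^{2/3} (log log |Im ρ|)^{1/3}`. -/
def InVK (K : ℝ) (x : CharIdx × ℂ) : Prop :=
  x.1.2.IsPrimitive ∧ 3 ≤ |x.2.im| ∧ Real.log ((x.1.1 : ℕ) : ℝ) ≤ LL 1 |x.2.im| ∧
    3 / 4 ≤ x.2.re ∧ 1 - K / LL 1 |x.2.im| ≤ x.2.re

open Classical in
/-- The number of zeros (with multiplicity) in the `K`-fold Vinogradov–Korobov region up to
height `T`. -/
noncomputable def vkCount (K T : ℝ) : ENNReal :=
  ∑' x : CharIdx × ℂ, if InVK K x ∧ |x.2.im| ≤ T then ((zord x : ℕ∞) : ENNReal) else 0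

/-- The scale `k` is *bad* for `c`: some primitive `L`-function of conductor `q`,
`log q ≤ (log 2^k)^{2/3} (log log 2^k)^{1/3}`, has a zero `ρ` with `2^k ≤ |Im ρ| < 2^(k+1)` and
`Re ρ ≥ 1 - c (log log 2^k / log 2^k)^{2/3}`. -/
def BadScale (c : ℝ) (k : ℕ) : Prop :=
  ∃ x : CharIdx × ℂ, x.1.2.IsPrimitive ∧
    Real.log ((x.1.1 : ℕ) : ℝ) ≤ LL 1 ((2 : ℝ) ^ k) ∧
    Lf x.1 x.2 = 0 ∧ (2 : ℝ) ^ k ≤ |x.2.im| ∧ |x.2.im| < (2 : ℝ) ^ (k + 1) ∧
    1 - c * (Real.log (Real.log ((2 : ℝ) ^ k)) / Real.log ((2 : ℝ) ^ k)) ^ (2 / 3 : ℝ) ≤ x.2.re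

lemma one_le_zmul {x : CharIdx × ℂ} (h0 : Lf x.1 x.2 = 0) (h1 : x.2 ≠ 1) : 1 ≤ zmul x := by
  have hA : AnalyticAt ℂ (Lf x.1) x.2 := analyticOnNhd_Lf x.1 x.2 h1
  have h2 : analyticOrderAt (Lf x.1) x.2 ≠ 0 := hA.analyticOrderAt_ne_zero.2 h0
  have h3 := zord_eq x
  unfold zord at h3
  rw [h3] at h2
  have h4 : zmul x ≠ 0 := by
    intro h
    apply h2
    rw [h]; rfl
  omega

lemma LL_one (T : ℝ) : LL 1 T = Real.log T ^ (2 / 3 : ℝ) * Real.log (Real.log T) ^ (1 / 3 : ℝ) := by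
  unfold LL
  rw [Real.log_one, zero_add]

lemma LL_one_mono {S T : ℝ} (hS : 3 ≤ S) (hST : S ≤ T) : LL 1 S ≤ LL 1 T := by
  rw [LL_one, LL_one]
  have h1 := one_lt_log hS
  have h2 := loglog_pos hS
  have h3 : Real.log S ≤ Real.log T := Real.log_le_log (by linarith) hST
  have h4 : Real.log (Real.log S) ≤ Real.log (Real.log T) := Real.log_le_log (by linarith) h3
  have h5 : 0 ≤ Real.log T := by linarith
  gcongr

/-- One block of scales. -/
lemma bad_block {C : ℝ} (h : Density C) {ε : ℝ} (hε : 0 < ε) {c : ℝ} (hc : 0 < c) (hc8 : c ≤ 1 / 8)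
    (hcε : 6 * c * C ≤ ε) {K : ℕ} (hK : 8 ≤ K) (P : Finset ℕ)
    (hP : ∀ k ∈ P, K / 2 < k ∧ k ≤ K ∧ BadScale c k) : (P.card : ℝ) ≤ C * ((K : ℝ) + 1) ^ ε := by
  classical
  have hl2 : (1 / 2 : ℝ) < Real.log 2 := by have := Real.log_two_gt_d9; linarith
  have hl2' : Real.log 2 < 1 := by have := Real.log_two_lt_d9; linarith
  have hKR : (8 : ℝ) ≤ K := by exact_mod_cast hK
  set T : ℝ := (2 : ℝ) ^ (K + 1) with hT
  have hlogT : Real.log T = ((K : ℝ) + 1) * Real.log 2 := by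
    rw [hT, Real.log_pow]; push_cast; ring
  have hT3 : 3 ≤ T := by
    rw [hT]
    calc (3 : ℝ) ≤ 2 ^ 2 := by norm_num
      _ ≤ 2 ^ (K + 1) := pow_le_pow_right₀ (by norm_num) (by omega)
  have hlT := one_lt_log hT3
  have hll := loglog_pos hT3
  set l := Real.log T with hl
  set m := Real.log l with hm
  have hml : m ≤ l := by
    have := Real.log_le_sub_one_of_pos (by linarith : 0 < l)
    linarith
  set Q : ℝ := Real.exp (LL 1 T) with hQ
  have hLL1 : 0 ≤ LL 1 T := LL_nonneg le_rfl hT3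
  have hQ1 : 1 ≤ Q := Real.one_le_exp hLL1
  set d : ℝ := c * (2 * m / l) ^ (2 / 3 : ℝ) with hd
  have hd0 : 0 ≤ d := by positivity
  have hd4 : d ≤ 1 / 4 := by
    have h1 : (2 * m / l) ^ (2 / 3 : ℝ) ≤ 2 := by
      have h2 : 2 * m / l ≤ 2 := by
        rw [div_le_iff₀ (by linarith)]; linarith
      calc (2 * m / l) ^ (2 / 3 : ℝ) ≤ (2 : ℝ) ^ (2 / 3 : ℝ) :=
            Real.rpow_le_rpow (by positivity) h2 (by norm_num)
        _ ≤ (2 : ℝ) ^ (1 : ℝ) := Real.rpow_le_rpow_of_exponent_le (by norm_num) (by norm_num)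
        _ = 2 := Real.rpow_one 2
    have : d ≤ 1 / 8 * 2 := by rw [hd]; gcongr
    linarith
  -- the zeros
  have hex : ∀ k ∈ P, ∃ x : CharIdx × ℂ, InRegion Q T d x ∧ 1 ≤ zmul x ∧
      (2 : ℝ) ^ k ≤ |x.2.im| ∧ |x.2.im| < (2 : ℝ) ^ (k + 1) := by
    intro k hk
    obtain ⟨hk1, hk2, x, hprim, hq, hz, him1, him2, hre⟩ := hP k hk
    refine ⟨x, ⟨?_, hprim, ?_, ?_⟩, ?_, him1, him2⟩
    · have hq0 : (0 : ℝ) < ((x.1.1 : ℕ) : ℝ) := by exact_mod_cast x.1.1.pos
      rw [← Real.exp_log hq0]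
      apply Real.exp_le_exp.2
      refine hq.trans (LL_one_mono ?_ ?_)
      · calc (3 : ℝ) ≤ 2 ^ 2 := by norm_num
          _ ≤ 2 ^ k := pow_le_pow_right₀ (by norm_num) (by omega)
      · exact pow_le_pow_right₀ (by norm_num) (by omega)
    · refine le_trans ?_ hre
      have hk3 : Real.log ((2 : ℝ) ^ k) = (k : ℝ) * Real.log 2 := Real.log_pow _ _
      have hk4 : l / 2 ≤ Real.log ((2 : ℝ) ^ k) := by
        rw [hk3, hlogT]
        have h3 : (K : ℝ) + 1 ≤ 2 * k := by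
          have : K + 1 ≤ 2 * k := by omega
          exact_mod_cast this
        have : ((K : ℝ) + 1) * Real.log 2 ≤ (2 * k) * Real.log 2 := by gcongr
        linarith
      have hk5 : Real.log ((2 : ℝ) ^ k) ≤ l := by
        rw [hl, hT]
        exact Real.log_le_log (by positivity) (pow_le_pow_right₀ (by norm_num) (by omega))
      have hk6 : 1 < Real.log ((2 : ℝ) ^ k) := by
        apply one_lt_log
        calc (3 : ℝ) ≤ 2 ^ 2 := by norm_num
          _ ≤ 2 ^ k := pow_le_pow_right₀ (by norm_num) (by omega)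
      have hk7 : Real.log (Real.log ((2 : ℝ) ^ k)) ≤ m := Real.log_le_log (by linarith) hk5
      have hk8 : 0 ≤ Real.log (Real.log ((2 : ℝ) ^ k)) := Real.log_nonneg hk6.le
      have hk9 : Real.log (Real.log ((2 : ℝ) ^ k)) / Real.log ((2 : ℝ) ^ k) ≤ 2 * m / l := by
        rw [div_le_div_iff₀ (by linarith) (by linarith)]
        nlinarith
      have : c * (Real.log (Real.log ((2 : ℝ) ^ k)) / Real.log ((2 : ℝ) ^ k)) ^ (2 / 3 : ℝ) ≤ d := by
        rw [hd]
        gcongr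
      linarith
    · exact him2.le.trans (pow_le_pow_right₀ (by norm_num) (by omega))
    · apply one_le_zmul hz
      intro h1
      rw [h1] at him1
      simp at him1
      have : (0 : ℝ) < 2 ^ k := by positivity
      linarith
  choose! f hf1 hf2 hf3 hf4 using hex
  have hinj : Set.InjOn f (P : Set ℕ) := by
    intro a ha b hb hab
    have ha1 := hf3 a ha
    have ha2 := hf4 a ha
    have hb1 := hf3 b hb
    have hb2 := hf4 b hb
    rw [hab] at ha1 ha2
    have h1 : (2 : ℝ) ^ a < 2 ^ (b + 1) := ha1.trans_lt hb2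
    have h2 : (2 : ℝ) ^ b < 2 ^ (a + 1) := hb1.trans_lt ha2
    have h3 := (pow_lt_pow_iff_right₀ (by norm_num : (1 : ℝ) < 2)).1 h1
    have h4 := (pow_lt_pow_iff_right₀ (by norm_num : (1 : ℝ) < 2)).1 h2
    omega
  have h1 := h.2 Q hQ1 T hT3 d hd0 hd4 (P.image f) (by
    intro x hx
    obtain ⟨k, hk, rfl⟩ := Finset.mem_image.1 hx
    exact hf1 k hk)
  have h2 : (P.card : ℝ) ≤ ∑ x ∈ P.image f, (zmul x : ℝ) := by
    rw [Finset.sum_image hinj]
    calc (P.card : ℝ) = ∑ k ∈ P, (1 : ℝ) := by simp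
      _ ≤ ∑ k ∈ P, (zmul (f k) : ℝ) := by
          refine Finset.sum_le_sum fun k hk => ?_
          exact_mod_cast hf2 k hk
  refine (h2.trans h1).trans ?_
  have hC := h.1
  have hLLQ : LL Q T = 2 * (l ^ (2 / 3 : ℝ) * m ^ (1 / 3 : ℝ)) := by
    have h3 : LL Q T = Real.log Q + LL 1 T := by
      unfold LL; rw [Real.log_one]; ring
    rw [h3, hQ, Real.log_exp, LL_one]
    ring
  have hE : EE Q T d ≤ 6 * c * m := by
    unfold EE
    have hl0 : 0 < l := by linarith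
    have e1 : (2 * m / l) ^ (2 / 3 : ℝ) = 2 ^ (2 / 3 : ℝ) * m ^ (2 / 3 : ℝ) / l ^ (2 / 3 : ℝ) := by
      rw [Real.div_rpow (by positivity) hl0.le, Real.mul_rpow (by norm_num) hll.le]
    have e2 : m ^ (2 / 3 : ℝ) * m ^ (1 / 3 : ℝ) = m := by
      rw [← Real.rpow_add hll]; norm_num
    have e3 : d * LL Q T = 2 * 2 ^ (2 / 3 : ℝ) * c * m := by
      rw [hd, hLLQ, e1]
      have hlp : l ^ (2 / 3 : ℝ) ≠ 0 := by positivity
      field_simp
      linear_combination e2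
    have e4 : d ^ (3 / 2 : ℝ) * l = c ^ (3 / 2 : ℝ) * 2 * m := by
      rw [hd, Real.mul_rpow hc.le (by positivity), ← Real.rpow_mul (by positivity)]
      norm_num
      field_simp
    have e5 : c ^ (3 / 2 : ℝ) ≤ c := by
      calc c ^ (3 / 2 : ℝ) ≤ c ^ (1 : ℝ) :=
            Real.rpow_le_rpow_of_exponent_ge hc (by linarith) (by norm_num)
        _ = c := Real.rpow_one c
    have e6 : (2 : ℝ) ^ (2 / 3 : ℝ) ≤ 2 := by
      calc (2 : ℝ) ^ (2 / 3 : ℝ) ≤ (2 : ℝ) ^ (1 : ℝ) :=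
            Real.rpow_le_rpow_of_exponent_le (by norm_num) (by norm_num)
        _ = 2 := Real.rpow_one 2
    rw [e3, e4]
    have e7 : 2 * (2 : ℝ) ^ (2 / 3 : ℝ) * c * m ≤ 2 * 2 * c * m := by gcongr
    have e8 : c ^ (3 / 2 : ℝ) * 2 * m ≤ c * 2 * m := by gcongr
    linarith
  have hexp : Real.exp (C * EE Q T d) ≤ ((K : ℝ) + 1) ^ ε := by
    calc Real.exp (C * EE Q T d) ≤ Real.exp (ε * m) := by
          apply Real.exp_le_exp.2
          calc C * EE Q T d ≤ C * (6 * c * m) := by gcongr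
            _ = (6 * c * C) * m := by ring
            _ ≤ ε * m := by gcongr
      _ = l ^ ε := by
          rw [Real.rpow_def_of_pos (by linarith), mul_comm]
      _ ≤ ((K : ℝ) + 1) ^ ε := by
          apply Real.rpow_le_rpow (by linarith) _ hε.le
          rw [hlogT]
          nlinarith
  gcongr

open Classical in
/-- **Widened zero-free region at almost all scales.** -/
theorem almost_all_scales {C : ℝ} (h : Density C) {ε : ℝ} (hε : 0 < ε) :
    ∃ c : ℝ, 0 < c ∧ ∃ C' : ℝ, ∀ K : ℕ, 1 ≤ K →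
      ((((Finset.Icc 2 K).filter (fun k => BadScale c k)).card : ℕ) : ℝ) ≤ C' * (K : ℝ) ^ ε := by
  have hC := h.1
  set c : ℝ := min (1 / 8) (ε / (6 * C)) with hc
  have hc0 : 0 < c := lt_min (by norm_num) (by positivity)
  have hc8 : c ≤ 1 / 8 := min_le_left _ _
  have hcε : 6 * c * C ≤ ε := by
    have h1 : c ≤ ε / (6 * C) := min_le_right _ _
    rw [le_div_iff₀ (by positivity)] at h1
    linarith
  have h2ε : (2 : ℝ) ^ (-ε) < 1 := Real.rpow_lt_one_of_one_lt_of_neg (by norm_num) (by linarith)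
  have h2ε0 : 0 < (2 : ℝ) ^ (-ε) := by positivity
  set A : ℝ := 8 + C * 2 ^ ε / (1 - 2 ^ (-ε)) with hA
  have hAC : C * 2 ^ ε ≤ A * (1 - 2 ^ (-ε)) := by
    have : C * 2 ^ ε / (1 - 2 ^ (-ε)) * (1 - 2 ^ (-ε)) = C * 2 ^ ε := by
      field_simp [(by linarith : (1 : ℝ) - 2 ^ (-ε) ≠ 0)]
    rw [hA, add_mul, this]
    nlinarith
  have hA8 : 8 ≤ A := by
    have : 0 ≤ C * 2 ^ ε / (1 - 2 ^ (-ε)) := by
      apply div_nonneg (by positivity) (by linarith)
    linarith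
  refine ⟨c, hc0, A, ?_⟩
  intro K
  induction K using Nat.strong_induction_on with
  | _ K ih =>
    intro hK1
    have hKR : (1 : ℝ) ≤ K := by exact_mod_cast hK1
    rcases lt_or_ge K 8 with hK8 | hK8
    · have h1 : ((Finset.Icc 2 K).filter (fun k => BadScale c k)).card ≤ 8 := by
        refine (Finset.card_filter_le _ _).trans ?_
        rw [Nat.card_Icc]; omega
      have h2 : (1 : ℝ) ≤ (K : ℝ) ^ ε := Real.one_le_rpow hKR hε.le
      calc ((((Finset.Icc 2 K).filter (fun k => BadScale c k)).card : ℕ) : ℝ) ≤ 8 := by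
            exact_mod_cast h1
        _ ≤ A * 1 := by linarith
        _ ≤ A * (K : ℝ) ^ ε := by gcongr
    · have hsplit : (Finset.Icc 2 K).filter (fun k => BadScale c k)
          ⊆ (Finset.Icc 2 (K / 2)).filter (fun k => BadScale c k) ∪
            (Finset.Ioc (K / 2) K).filter (fun k => BadScale c k) := by
        intro k hk
        rw [Finset.mem_union]
        simp only [Finset.mem_filter, Finset.mem_Icc, Finset.mem_Ioc] at hk ⊢
        rcases le_or_gt k (K / 2) with h1 | h1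
        · left; exact ⟨⟨hk.1.1, h1⟩, hk.2⟩
        · right; exact ⟨⟨h1, hk.1.2⟩, hk.2⟩
      have hcard : ((Finset.Icc 2 K).filter (fun k => BadScale c k)).card
          ≤ ((Finset.Icc 2 (K / 2)).filter (fun k => BadScale c k)).card +
            ((Finset.Ioc (K / 2) K).filter (fun k => BadScale c k)).card :=
        (Finset.card_le_card hsplit).trans (Finset.card_union_le _ _)
      have hb := bad_block h hε hc0 hc8 hcε hK8
        ((Finset.Ioc (K / 2) K).filter (fun k => BadScale c k)) (by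
          intro k hk
          simp only [Finset.mem_filter, Finset.mem_Ioc] at hk
          exact ⟨hk.1.1, hk.1.2, hk.2⟩)
      have hi := ih (K / 2) (by omega) (by omega)
      have hK2 : ((K / 2 : ℕ) : ℝ) ≤ (K : ℝ) / 2 := Nat.cast_div_le
      have hp1 : (((K / 2 : ℕ) : ℝ)) ^ ε ≤ (K : ℝ) ^ ε * 2 ^ (-ε) := by
        calc (((K / 2 : ℕ) : ℝ)) ^ ε ≤ ((K : ℝ) / 2) ^ ε :=
              Real.rpow_le_rpow (Nat.cast_nonneg _) hK2 hε.le
          _ = (K : ℝ) ^ ε * 2 ^ (-ε) := by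
              rw [Real.div_rpow (by linarith) (by norm_num), Real.rpow_neg (by norm_num)]
              rfl
      have hp2 : ((K : ℝ) + 1) ^ ε ≤ 2 ^ ε * (K : ℝ) ^ ε := by
        rw [← Real.mul_rpow (by norm_num) (by linarith)]
        exact Real.rpow_le_rpow (by linarith) (by linarith) hε.le
      have hKe : 0 ≤ (K : ℝ) ^ ε := by positivity
      calc ((((Finset.Icc 2 K).filter (fun k => BadScale c k)).card : ℕ) : ℝ)
          ≤ ((((Finset.Icc 2 (K / 2)).filter (fun k => BadScale c k)).card : ℕ) : ℝ) +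
            ((((Finset.Ioc (K / 2) K).filter (fun k => BadScale c k)).card : ℕ) : ℝ) := by
            exact_mod_cast hcard
        _ ≤ A * ((K : ℝ) ^ ε * 2 ^ (-ε)) + C * (2 ^ ε * (K : ℝ) ^ ε) := by
            refine add_le_add (hi.trans ?_) (hb.trans ?_)
            · gcongr
            · gcongr
        _ = (A * 2 ^ (-ε) + C * 2 ^ ε) * (K : ℝ) ^ ε := by ring
        _ ≤ A * (K : ℝ) ^ ε := by
            apply mul_le_mul_of_nonneg_right _ hKe
            linarith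

lemma few_block {C : ℝ} (h : Density C) {K : ℝ} (hK : 0 ≤ K) (n : ℕ) (hn : 2 ≤ n)
    (S : Finset (CharIdx × ℂ))
    (hS : ∀ x ∈ S, InVK K x ∧ Real.exp (2 ^ (n - 1)) < |x.2.im| ∧ |x.2.im| ≤ Real.exp (2 ^ n)) :
    ∑ x ∈ S, (zmul x : ℝ) ≤ C * Real.exp (C * (4 * K + (4 * K) ^ (3 / 2 : ℝ) * k3)) := by
  set T : ℝ := Real.exp (2 ^ n) with hT
  have h2n : (4 : ℝ) ≤ 2 ^ n := by
    calc (4 : ℝ) = 2 ^ 2 := by norm_num
      _ ≤ 2 ^ n := pow_le_pow_right₀ (by norm_num) hn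
  have hT3 : 3 ≤ T := by
    have := Real.add_one_le_exp ((2 : ℝ) ^ n)
    linarith
  have hLpos := LL_pos le_rfl hT3
  set Q : ℝ := Real.exp (LL 1 T) with hQ
  have hQ1 : 1 ≤ Q := Real.one_le_exp hLpos.le
  have hLLQ : LL Q T = 2 * LL 1 T := by
    have h3 : LL Q T = Real.log Q + LL 1 T := by
      unfold LL; rw [Real.log_one]; ring
    rw [h3, hQ, Real.log_exp]
    ring
  apply kfold_finite h (4 * K) (by positivity) Q hQ1 T hT3 S
  intro x hx
  obtain ⟨⟨hprim, him3, hq, hre1, hre2⟩, him1, him2⟩ := hS x hx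
  refine ⟨?_, hprim, ?_, him2⟩
  · have hq0 : (0 : ℝ) < ((x.1.1 : ℕ) : ℝ) := by exact_mod_cast x.1.1.pos
    rw [← Real.exp_log hq0]
    exact Real.exp_le_exp.2 (hq.trans (LL_one_mono him3 him2))
  · have hlb : LL 1 T ≤ 2 * LL 1 |x.2.im| := by
      have hn1 : (2 : ℝ) ≤ 2 ^ (n - 1) := by
        calc (2 : ℝ) = 2 ^ 1 := by norm_num
          _ ≤ 2 ^ (n - 1) := pow_le_pow_right₀ (by norm_num) (by omega)
      have hS3 : 3 ≤ Real.exp ((2 : ℝ) ^ (n - 1)) := by
        have := Real.add_one_le_exp ((2 : ℝ) ^ (n - 1))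
        linarith
      have h1 := LL_one_mono hS3 him1.le
      refine le_trans ?_ (mul_le_mul_of_nonneg_left h1 (by norm_num : (0 : ℝ) ≤ 2))
      rw [LL_one, LL_one, hT, Real.log_exp, Real.log_exp, Real.log_pow, Real.log_pow]
      have h2 : (2 : ℝ) ^ n = 2 * 2 ^ (n - 1) := by
        rw [← pow_succ']; congr 1; omega
      have hl2 : 0 < Real.log 2 := Real.log_pos (by norm_num)
      have h3 : (n : ℝ) * Real.log 2 ≤ 2 * (((n - 1 : ℕ) : ℝ) * Real.log 2) := by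
        have : (n : ℝ) ≤ 2 * ((n - 1 : ℕ) : ℝ) := by
          have : n ≤ 2 * (n - 1) := by omega
          exact_mod_cast this
        nlinarith
      rw [h2]
      have h4 : (0 : ℝ) ≤ ((n - 1 : ℕ) : ℝ) * Real.log 2 := by positivity
      calc (2 * (2 : ℝ) ^ (n - 1)) ^ (2 / 3 : ℝ) * ((n : ℝ) * Real.log 2) ^ (1 / 3 : ℝ)
          ≤ (2 * (2 : ℝ) ^ (n - 1)) ^ (2 / 3 : ℝ)
            * (2 * (((n - 1 : ℕ) : ℝ) * Real.log 2)) ^ (1 / 3 : ℝ) := by gcongr
        _ = (2 ^ (2 / 3 : ℝ) * 2 ^ (1 / 3 : ℝ)) * (((2 : ℝ) ^ (n - 1)) ^ (2 / 3 : ℝ) *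
            (((n - 1 : ℕ) : ℝ) * Real.log 2) ^ (1 / 3 : ℝ)) := by
            rw [Real.mul_rpow (by norm_num) (by positivity), Real.mul_rpow (by norm_num) h4]
            ring
        _ = 2 * (((2 : ℝ) ^ (n - 1)) ^ (2 / 3 : ℝ) *
            (((n - 1 : ℕ) : ℝ) * Real.log 2) ^ (1 / 3 : ℝ)) := by
            rw [← Real.rpow_add (by norm_num)]; norm_num
    have hpos : 0 < LL 1 |x.2.im| := LL_pos le_rfl him3
    have hcomp : K / LL 1 |x.2.im| ≤ 4 * K / LL Q T := by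
      rw [hLLQ, div_le_div_iff₀ hpos (by positivity)]
      nlinarith
    have hmin : 1 - min (1 / 4) (4 * K / LL Q T) ≤ x.2.re := by
      rcases min_choice (1 / 4 : ℝ) (4 * K / LL Q T) with h5 | h5
      · rw [h5]; linarith
      · rw [h5]; linarith
    exact hmin

lemma few_exceptions_exp {C : ℝ} (h : Density C) {K : ℝ} (hK : 0 ≤ K) :
    ∃ A : ℝ, 0 ≤ A ∧ ∀ n : ℕ, ∀ S : Finset (CharIdx × ℂ),
      (∀ x ∈ S, InVK K x ∧ |x.2.im| ≤ Real.exp (2 ^ n)) →
      ∑ x ∈ S, (zmul x : ℝ) ≤ A * ((n : ℝ) + 1) := by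
  classical
  have hC := h.1
  have hk3 := k3_nonneg
  set B1 : ℝ := C * Real.exp (C * (4 * K + (4 * K) ^ (3 / 2 : ℝ) * k3)) with hB1
  set T1 : ℝ := Real.exp 2 with hT1
  have hT13 : 3 ≤ T1 := by
    have := Real.add_one_le_exp (2 : ℝ)
    linarith
  set Q1 : ℝ := Real.exp (LL 1 T1) with hQ1
  have hQ11 : 1 ≤ Q1 := Real.one_le_exp (LL_nonneg le_rfl hT13)
  set B2 : ℝ := C * Real.exp (C * EE Q1 T1 (1 / 4)) with hB2
  have hB10 : 0 ≤ B1 := by positivity
  have hB20 : 0 ≤ B2 := by positivity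
  refine ⟨B1 + B2, by positivity, ?_⟩
  intro n
  induction n with
  | zero =>
    intro S hS
    have h1 : ∑ x ∈ S, (zmul x : ℝ) ≤ B2 := by
      apply h.2 Q1 hQ11 T1 hT13 (1 / 4) (by norm_num) le_rfl S
      intro x hx
      obtain ⟨⟨hprim, him3, hq, hre1, hre2⟩, him2⟩ := hS x hx
      have him4 : |x.2.im| ≤ T1 := him2.trans (Real.exp_le_exp.2 (by norm_num))
      refine ⟨?_, hprim, by linarith, him4⟩
      have hq0 : (0 : ℝ) < ((x.1.1 : ℕ) : ℝ) := by exact_mod_cast x.1.1.pos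
      rw [← Real.exp_log hq0]
      exact Real.exp_le_exp.2 (hq.trans (LL_one_mono him3 him4))
    have : (B1 + B2) * (((0 : ℕ) : ℝ) + 1) = B1 + B2 := by push_cast; ring
    rw [this]
    linarith
  | succ n ih =>
    intro S hS
    rcases Nat.eq_zero_or_pos n with hn | hn
    · subst hn
      have h1 : ∑ x ∈ S, (zmul x : ℝ) ≤ B2 := by
        apply h.2 Q1 hQ11 T1 hT13 (1 / 4) (by norm_num) le_rfl S
        intro x hx
        obtain ⟨⟨hprim, him3, hq, hre1, hre2⟩, him2⟩ := hS x hx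
        have him4 : |x.2.im| ≤ T1 := him2.trans (Real.exp_le_exp.2 (by norm_num))
        refine ⟨?_, hprim, by linarith, him4⟩
        have hq0 : (0 : ℝ) < ((x.1.1 : ℕ) : ℝ) := by exact_mod_cast x.1.1.pos
        rw [← Real.exp_log hq0]
        exact Real.exp_le_exp.2 (hq.trans (LL_one_mono him3 him4))
      have : (B1 + B2) * (((0 + 1 : ℕ) : ℝ) + 1) = 2 * (B1 + B2) := by push_cast; ring
      rw [this]
      linarith
    · have h1 := ih (S.filter (fun x => |x.2.im| ≤ Real.exp (2 ^ n))) (by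
        intro x hx
        rw [Finset.mem_filter] at hx
        exact ⟨(hS x hx.1).1, hx.2⟩)
      have h2 := few_block h hK (n + 1) (by omega)
        (S.filter (fun x => ¬ |x.2.im| ≤ Real.exp (2 ^ n))) (by
        intro x hx
        rw [Finset.mem_filter] at hx
        refine ⟨(hS x hx.1).1, ?_, (hS x hx.1).2⟩
        have : n + 1 - 1 = n := by omega
        rw [this]
        exact not_le.1 hx.2)
      rw [← Finset.sum_filter_add_sum_filter_not S (fun x => |x.2.im| ≤ Real.exp (2 ^ n))]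
      push_cast
      have : (B1 + B2) * ((n : ℝ) + 1 + 1) = (B1 + B2) * ((n : ℝ) + 1) + (B1 + B2) := by ring
      rw [this]
      linarith

/-- **Few exceptions to the `K`-fold Vinogradov–Korobov region.** -/
theorem few_exceptions {C : ℝ} (h : Density C) (K : ℝ) (hK : 0 ≤ K) :
    ∃ C' : ℝ, ∀ T : ℝ, 16 ≤ T → vkCount K T ≤ ENNReal.ofReal (C' * Real.log (Real.log T)) := by
  classical
  obtain ⟨A, hA, hmain⟩ := few_exceptions_exp h hK
  refine ⟨4 * A, fun T hT => ?_⟩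
  have hl2 : (1 / 2 : ℝ) < Real.log 2 := by have := Real.log_two_gt_d9; linarith
  have hlog16 : Real.log 16 = 4 * Real.log 2 := by
    rw [show (16 : ℝ) = 2 ^ 4 by norm_num, Real.log_pow]; norm_num
  have hlT : 4 * Real.log 2 ≤ Real.log T := by
    rw [← hlog16]; exact Real.log_le_log (by norm_num) hT
  have hlTe : Real.exp 1 ≤ Real.log T := by
    have h1 := Real.exp_one_lt_d9
    have h2 := Real.log_two_gt_d9
    linarith
  have hll1 : 1 ≤ Real.log (Real.log T) := by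
    rw [Real.le_log_iff_exp_le (by linarith)]
    exact hlTe
  set u := Real.log (Real.log T) with hu
  set n : ℕ := ⌈u / Real.log 2⌉₊ with hn
  have hn1 : u / Real.log 2 ≤ n := Nat.le_ceil _
  have hn2 : (n : ℝ) < u / Real.log 2 + 1 := Nat.ceil_lt_add_one (by positivity)
  have hn3 : (n : ℝ) + 1 ≤ 4 * u := by
    have : u / Real.log 2 ≤ 2 * u := by
      rw [div_le_iff₀ (by linarith)]; nlinarith
    linarith
  have hTn : T ≤ Real.exp (2 ^ n) := by
    rw [← Real.log_le_iff_le_exp (by linarith)]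
    rw [← Real.log_le_log_iff (by linarith) (by positivity), Real.log_pow]
    rw [div_le_iff₀ (by linarith)] at hn1
    exact hn1
  have hfin : ∀ S : Finset (CharIdx × ℂ), (∀ x ∈ S, InVK K x ∧ |x.2.im| ≤ T) →
      ∑ x ∈ S, (zmul x : ℝ) ≤ 4 * A * u := by
    intro S hS
    refine (hmain n S (fun x hx => ⟨(hS x hx).1, (hS x hx).2.trans hTn⟩)).trans ?_
    calc A * ((n : ℝ) + 1) ≤ A * (4 * u) := by gcongr
      _ = 4 * A * u := by ring
  unfold vkCount
  rw [ENNReal.tsum_eq_iSup_sum]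
  apply iSup_le
  intro S
  have h1 : ∑ x ∈ S, (if InVK K x ∧ |x.2.im| ≤ T then ((zord x : ℕ∞) : ENNReal) else 0)
      = ∑ x ∈ S.filter (fun x => InVK K x ∧ |x.2.im| ≤ T), ((zmul x : ℕ) : ENNReal) := by
    rw [← Finset.sum_filter]
    refine Finset.sum_congr rfl fun x _ => ?_
    rw [zord_eq]
    simp
  have h2 := hfin (S.filter (fun x => InVK K x ∧ |x.2.im| ≤ T))
    (fun x hx => (Finset.mem_filter.1 hx).2)
  calc ∑ x ∈ S, (if InVK K x ∧ |x.2.im| ≤ T then ((zord x : ℕ∞) : ENNReal) else 0)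
      = ENNReal.ofReal (∑ x ∈ S.filter (fun x => InVK K x ∧ |x.2.im| ≤ T), (zmul x : ℝ)) := by
        rw [h1, ENNReal.ofReal_sum_of_nonneg (fun _ _ => Nat.cast_nonneg _)]
        refine Finset.sum_congr rfl fun x _ => ?_
        rw [ENNReal.ofReal_natCast]
    _ ≤ ENNReal.ofReal (4 * A * u) := ENNReal.ofReal_le_ofReal h2

end Vale.Agent.P026.H267
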