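import Mathlib
import Vale.Agent.P026.H267.Corollaries

open Finset

namespace Vale.Agent.P026.H267

open Vale.Agent.P026.H392 (LL MM)

/-- `χ` is *bad* for `(c, Q)`: `L(s, χ)` has a zero `ρ ≠ 1` with `|Im ρ| ≤ exp (exp (Q^c))` and
`Re ρ ≥ 1 - c log Q / (u^{2/3} (log Q + log u)^{1/3})`, `u = log (Q + |Im ρ|)`. -/
def BadChar (c Q : ℝ) (χ : CharIdx) : Prop :=
  ∃ ρ : ℂ, Lf χ ρ = 0 ∧ |ρ.im| ≤ Real.exp (Real.exp (Q ^ c)) ∧
    1 - c * Real.log Q / (Real.log (Q + |ρ.im|) ^ (2 / 3 : ℝ) *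
      (Real.log Q + Real.log (Real.log (Q + |ρ.im|))) ^ (1 / 3 : ℝ)) ≤ ρ.re

lemma Lf_ne_zero_of_one_le_re {χ : CharIdx} (hp : χ.2.IsPrimitive) {s : ℂ} (hs : 1 ≤ s.re) :
    Lf χ s ≠ 0 := by
  by_cases hc : χ.2 ≠ 1 ∨ s ≠ 1
  · exact DirichletCharacter.LFunction_ne_zero_of_one_le_re χ.2 hc hs
  · push Not at hc
    obtain ⟨h1, h2⟩ := hc
    obtain ⟨q, χ⟩ := χ
    simp only at h1 hp
    have hq : (q : ℕ) = 1 := by
      rw [DirichletCharacter.isPrimitive_def, h1, DirichletCharacter.conductor_one] at hp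
      exact hp.symm
    have hq' : q = 1 := PNat.coe_eq_one_iff.1 hq
    subst hq'
    rw [h2]
    have : DirichletCharacter.LFunction χ 1 = riemannZeta 1 := by
      have := DirichletCharacter.LFunction_modOne_eq (χ := χ)
      exact congrFun this 1
    change DirichletCharacter.LFunction χ 1 ≠ 0
    rw [this]
    exact riemannZeta_one_ne_zero

/-- choice of the scale -/
lemma exists_scale {L u : ℝ} (hL : 0 < L) (hu : L ≤ u) :
    ∃ j : ℕ, u ≤ 2 ^ j * (2 * L) ∧ 2 ^ j * L ≤ u := by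
  classical
  have hex : ∃ n : ℕ, u ≤ 2 ^ n * (2 * L) := by
    obtain ⟨n, hn⟩ := pow_unbounded_of_one_lt (u / (2 * L)) (by norm_num : (1 : ℝ) < 2)
    refine ⟨n, ?_⟩
    rw [div_lt_iff₀ (by positivity)] at hn
    exact hn.le
  refine ⟨Nat.find hex, Nat.find_spec hex, ?_⟩
  rcases Nat.eq_zero_or_pos (Nat.find hex) with h | h
  · rw [h, pow_zero, one_mul]; exact hu
  · have h2 := Nat.find_min hex (m := Nat.find hex - 1) (by omega)
    push Not at h2
    have h3 : (2 : ℝ) ^ (Nat.find hex) = 2 * 2 ^ (Nat.find hex - 1) := by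
      rw [← pow_succ']; congr 1; omega
    rw [h3]
    linarith

lemma scale_count {L u v : ℝ} (hL : 1 ≤ L) (hv : 1 ≤ v) (hu : u ≤ Real.log 2 + L + Real.exp v)
    {j : ℕ} (hj : 2 ^ j * L ≤ u) : (j : ℝ) + 1 ≤ 5 * v := by
  have hl2 : (0.69 : ℝ) < Real.log 2 := by have := Real.log_two_gt_d9; linarith
  have hl2' : Real.log 2 < 0.7 := by have := Real.log_two_lt_d9; linarith
  have he1 : Real.exp 1 ≤ Real.exp v := Real.exp_le_exp.2 hv
  have he2 : (2 : ℝ) < Real.exp 1 := by have := Real.exp_one_gt_d9; linarith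
  have h1 : (2 : ℝ) ^ j ≤ 2 * Real.exp v := by
    have h2 : (2 : ℝ) ^ j * L ≤ (2 * Real.exp v) * L := by
      nlinarith [mul_nonneg (by linarith : (0 : ℝ) ≤ L - 1) (by linarith : (0 : ℝ) ≤ 2 * Real.exp v - 2)]
    exact le_of_mul_le_mul_right h2 (by linarith)
  have h3 : (j : ℝ) * Real.log 2 ≤ Real.log 2 + v := by
    have h4 := Real.log_le_log (by positivity) h1
    rw [Real.log_pow, Real.log_mul (by norm_num) (Real.exp_pos _).ne', Real.log_exp] at h4
    exact h4
  nlinarith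

/-- **Almost all characters.** -/
theorem almost_all_characters {C : ℝ} (h : Density C) {ε : ℝ} (hε : 0 < ε) :
    ∃ c : ℝ, 0 < c ∧ ∃ C' : ℝ, ∀ Q : ℝ, 3 ≤ Q → ∀ F : Finset CharIdx,
      (∀ χ ∈ F, ((χ.1 : ℕ) : ℝ) ≤ Q ∧ χ.2.IsPrimitive ∧ BadChar c Q χ) →
      (F.card : ℝ) ≤ C' * Q ^ ε := by
  classical
  have hC := h.1
  obtain ⟨c, hc0, hc8, hcε⟩ : ∃ c : ℝ, 0 < c ∧ c ≤ 1 / 8 ∧ c * (1 + 6 * C) ≤ ε := by
    refine ⟨min (1 / 8) (ε / (1 + 6 * C)), lt_min (by norm_num) (by positivity), min_le_left _ _, ?_⟩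
    calc min (1 / 8) (ε / (1 + 6 * C)) * (1 + 6 * C) ≤ ε / (1 + 6 * C) * (1 + 6 * C) := by
          gcongr; exact min_le_right _ _
      _ = ε := by field_simp
  refine ⟨c, hc0, 5 * C, ?_⟩
  intro Q hQ F hF
  set L := Real.log Q with hL
  have hL1 : 1 < L := one_lt_log hQ
  have hQ1 : 1 ≤ Q := by linarith
  have hex : ∀ χ ∈ F, ∃ (ρ : ℂ) (j : ℕ), Lf χ ρ = 0 ∧ |ρ.im| ≤ Real.exp (Real.exp (Q ^ c)) ∧
      1 - c * L / (Real.log (Q + |ρ.im|) ^ (2 / 3 : ℝ) *
        (L + Real.log (Real.log (Q + |ρ.im|))) ^ (1 / 3 : ℝ)) ≤ ρ.re ∧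
      Real.log (Q + |ρ.im|) ≤ 2 ^ j * (2 * L) ∧ 2 ^ j * L ≤ Real.log (Q + |ρ.im|) := by
    intro χ hχ
    obtain ⟨_, _, ρ, h1, h2, h3⟩ := hF χ hχ
    have hu : L ≤ Real.log (Q + |ρ.im|) :=
      Real.log_le_log (by linarith) (by linarith [abs_nonneg ρ.im])
    obtain ⟨j, hj1, hj2⟩ := exists_scale (by linarith) hu
    exact ⟨ρ, j, h1, h2, h3, hj1, hj2⟩
  choose! r j hr1 hr2 hr3 hr4 hr5 using hex
  set v := Q ^ c with hv
  have hv1 : 1 ≤ v := Real.one_le_rpow hQ1 hc0.le
  -- the range of scales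
  have hjle : ∀ χ ∈ F, (j χ : ℝ) + 1 ≤ 5 * v := by
    intro χ hχ
    apply scale_count (L := L) (u := Real.log (Q + |(r χ).im|)) hL1.le hv1 _ (hr5 χ hχ)
    have h1 : Q + |(r χ).im| ≤ 2 * Q * Real.exp (Real.exp v) := by
      have h2 : 1 ≤ Real.exp (Real.exp v) := Real.one_le_exp (Real.exp_pos _).le
      have h3 := hr2 χ hχ
      nlinarith
    calc Real.log (Q + |(r χ).im|) ≤ Real.log (2 * Q * Real.exp (Real.exp v)) :=
          Real.log_le_log (by positivity) h1
      _ = Real.log 2 + L + Real.exp v := by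
          rw [Real.log_mul (by positivity) (Real.exp_pos _).ne', Real.log_exp,
            Real.log_mul (by norm_num) (by linarith)]
  set J : ℕ := ⌊5 * v⌋₊ with hJ
  have hJ1 : (J : ℝ) ≤ 5 * v := Nat.floor_le (by positivity)
  have hmaps : ∀ χ ∈ F, j χ ∈ Finset.range J := by
    intro χ hχ
    rw [Finset.mem_range]
    have h1 := hjle χ hχ
    have h2 : j χ + 1 ≤ J := Nat.le_floor (by push_cast; exact h1)
    omega
  have hfib : ∀ i ∈ Finset.range J, ((F.filter (fun χ => j χ = i)).card : ℝ)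
      ≤ C * Real.exp (C * (6 * c * L)) := by
    intro i _
    set P := F.filter (fun χ => j χ = i) with hP
    set T : ℝ := Real.exp (2 ^ i * (2 * L)) with hT
    have h2i : (1 : ℝ) ≤ 2 ^ i := one_le_pow₀ (by norm_num)
    have hT3 : 3 ≤ T := by
      have h1 : 2 ≤ 2 ^ i * (2 * L) := by nlinarith
      have h2 := Real.add_one_le_exp (2 ^ i * (2 * L))
      linarith
    set l := Real.log T with hl
    have hlT : l = 2 ^ i * (2 * L) := by rw [hl, hT, Real.log_exp]
    have hl2L : 2 * L ≤ l := by rw [hlT]; nlinarith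
    have hl1 : 1 < l := by linarith
    set m := Real.log l with hm
    have hm0 : 0 < m := Real.log_pos hl1
    set d : ℝ := 2 * c * L / (l ^ (2 / 3 : ℝ) * (L + m) ^ (1 / 3 : ℝ)) with hd
    have hL0 : 0 < L := by linarith
    have hl0 : 0 < l := by linarith
    have hLm : 0 < L + m := by linarith
    have hden : 0 < l ^ (2 / 3 : ℝ) * (L + m) ^ (1 / 3 : ℝ) := by positivity
    have hd0 : 0 ≤ d := by positivity
    have hLL3 : L = L ^ (2 / 3 : ℝ) * L ^ (1 / 3 : ℝ) := by
      rw [← Real.rpow_add hL0]; norm_num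
    have hdenL : L ≤ l ^ (2 / 3 : ℝ) * (L + m) ^ (1 / 3 : ℝ) := by
      calc L = L ^ (2 / 3 : ℝ) * L ^ (1 / 3 : ℝ) := hLL3
        _ ≤ l ^ (2 / 3 : ℝ) * (L + m) ^ (1 / 3 : ℝ) := by
            apply mul_le_mul
            · exact Real.rpow_le_rpow hL0.le (by linarith) (by norm_num)
            · exact Real.rpow_le_rpow hL0.le (by linarith) (by norm_num)
            · positivity
            · positivity
    have hd2c : d ≤ 2 * c := by
      rw [hd, div_le_iff₀ hden]
      have : 2 * c * L ≤ 2 * c * (l ^ (2 / 3 : ℝ) * (L + m) ^ (1 / 3 : ℝ)) := by gcongr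
      exact this
    have hd4 : d ≤ 1 / 4 := by linarith
    have hS : ∀ x ∈ P.image (fun χ => (χ, r χ)), InRegion Q T d x := by
      intro x hx
      obtain ⟨χ, hχ, rfl⟩ := Finset.mem_image.1 hx
      rw [hP, Finset.mem_filter] at hχ
      obtain ⟨hχF, hji⟩ := hχ
      obtain ⟨hq, hprim, _⟩ := hF χ hχF
      have h4 := hr4 χ hχF
      have h5 := hr5 χ hχF
      have h3 := hr3 χ hχF
      rw [hji] at h4 h5
      set u := Real.log (Q + |(r χ).im|) with hu
      have hul : l / 2 ≤ u := by rw [hlT]; linarith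
      have hu0 : 0 < u := by linarith
      refine ⟨hq, hprim, ?_, ?_⟩
      · refine le_trans ?_ h3
        have hlogu : m - Real.log 2 ≤ Real.log u := by
          rw [hm, ← Real.log_div hl0.ne' (by norm_num)]
          exact Real.log_le_log (by positivity) hul
        have hl2' : Real.log 2 < 0.7 := by have := Real.log_two_lt_d9; linarith
        have hl2'' : 0.69 < Real.log 2 := by have := Real.log_two_gt_d9; linarith
        have hm1 : Real.log 2 ≤ m := by
          rw [hm]; exact Real.log_le_log (by norm_num) (by linarith)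
        have hLu : (L + m) / 2 ≤ L + Real.log u := by linarith
        have hkey : c * L / (u ^ (2 / 3 : ℝ) * (L + Real.log u) ^ (1 / 3 : ℝ)) ≤ d := by
          have h6 : l ^ (2 / 3 : ℝ) * (L + m) ^ (1 / 3 : ℝ)
              ≤ 2 * (u ^ (2 / 3 : ℝ) * (L + Real.log u) ^ (1 / 3 : ℝ)) := by
            have h7 : l ^ (2 / 3 : ℝ) ≤ 2 ^ (2 / 3 : ℝ) * u ^ (2 / 3 : ℝ) := by
              rw [← Real.mul_rpow (by norm_num) hu0.le]
              exact Real.rpow_le_rpow hl0.le (by linarith) (by norm_num)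
            have h8 : (L + m) ^ (1 / 3 : ℝ) ≤ 2 ^ (1 / 3 : ℝ) * (L + Real.log u) ^ (1 / 3 : ℝ) := by
              rw [← Real.mul_rpow (by norm_num) (by linarith)]
              exact Real.rpow_le_rpow hLm.le (by linarith) (by norm_num)
            calc l ^ (2 / 3 : ℝ) * (L + m) ^ (1 / 3 : ℝ)
                ≤ (2 ^ (2 / 3 : ℝ) * u ^ (2 / 3 : ℝ)) *
                  (2 ^ (1 / 3 : ℝ) * (L + Real.log u) ^ (1 / 3 : ℝ)) := by gcongr
              _ = (2 ^ (2 / 3 : ℝ) * 2 ^ (1 / 3 : ℝ)) *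
                  (u ^ (2 / 3 : ℝ) * (L + Real.log u) ^ (1 / 3 : ℝ)) := by ring
              _ = _ := by rw [← Real.rpow_add (by norm_num)]; norm_num
          have hLu0 : 0 < L + Real.log u := by linarith
          rw [hd, div_le_div_iff₀ (by positivity) hden]
          calc c * L * (l ^ (2 / 3 : ℝ) * (L + m) ^ (1 / 3 : ℝ))
              ≤ c * L * (2 * (u ^ (2 / 3 : ℝ) * (L + Real.log u) ^ (1 / 3 : ℝ))) := by gcongr
            _ = _ := by ring
        linarith
      · have h6 : Real.exp u = Q + |(r χ).im| := Real.exp_log (by positivity)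
        have h7 : Real.exp u ≤ T := Real.exp_le_exp.2 h4
        change |(r χ).im| ≤ T
        linarith
    have h1 := h.2 Q hQ1 T hT3 d hd0 hd4 (P.image (fun χ => (χ, r χ))) hS
    have h2 : (P.card : ℝ) ≤ ∑ x ∈ P.image (fun χ => (χ, r χ)), (zmul x : ℝ) := by
      rw [Finset.sum_image (by
        intro a _ b _ hab
        exact congrArg Prod.fst hab)]
      calc (P.card : ℝ) = ∑ χ ∈ P, (1 : ℝ) := by simp
        _ ≤ ∑ χ ∈ P, (zmul (χ, r χ) : ℝ) := by
            refine Finset.sum_le_sum fun χ hχ => ?_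
            rw [hP, Finset.mem_filter] at hχ
            have hz := hr1 χ hχ.1
            have hne : (r χ) ≠ 1 := by
              intro h1
              rw [h1] at hz
              exact Lf_ne_zero_of_one_le_re (hF χ hχ.1).2.1 (by simp) hz
            exact_mod_cast one_le_zmul (x := (χ, r χ)) hz hne
    refine (h2.trans h1).trans ?_
    have hE : EE Q T d ≤ 6 * c * L := by
      unfold EE LL
      rw [← hl, ← hm, ← hL]
      have e1 : d * L ≤ 2 * c * L := by gcongr
      have e2 : d * (l ^ (2 / 3 : ℝ) * m ^ (1 / 3 : ℝ)) ≤ 2 * c * L := by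
        rw [hd, div_mul_eq_mul_div, div_le_iff₀ hden]
        have : m ^ (1 / 3 : ℝ) ≤ (L + m) ^ (1 / 3 : ℝ) :=
          Real.rpow_le_rpow hm0.le (by linarith) (by norm_num)
        gcongr
      have e3 : d ^ (3 / 2 : ℝ) * l ≤ 2 * c * L := by
        rw [hd, Real.div_rpow (by positivity) hden.le, div_mul_eq_mul_div, div_le_iff₀ (by positivity)]
        have e4 : (l ^ (2 / 3 : ℝ) * (L + m) ^ (1 / 3 : ℝ)) ^ (3 / 2 : ℝ)
            = l * (L + m) ^ (1 / 2 : ℝ) := by
          rw [Real.mul_rpow (by positivity) (by positivity), ← Real.rpow_mul hl0.le,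
            ← Real.rpow_mul hLm.le]
          norm_num
        have e5 : (2 * c * L) ^ (3 / 2 : ℝ) ≤ 2 * c * L * L ^ (1 / 2 : ℝ) := by
          rw [Real.mul_rpow (by positivity) hL0.le]
          have e6 : (2 * c) ^ (3 / 2 : ℝ) ≤ 2 * c := by
            calc (2 * c) ^ (3 / 2 : ℝ) ≤ (2 * c) ^ (1 : ℝ) :=
                  Real.rpow_le_rpow_of_exponent_ge (by positivity) (by linarith) (by norm_num)
              _ = 2 * c := Real.rpow_one _
          have e7 : L ^ (3 / 2 : ℝ) = L * L ^ (1 / 2 : ℝ) := by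
            rw [show (3 / 2 : ℝ) = 1 + 1 / 2 by norm_num, Real.rpow_add hL0, Real.rpow_one]
          rw [e7]
          calc (2 * c) ^ (3 / 2 : ℝ) * (L * L ^ (1 / 2 : ℝ)) ≤ (2 * c) * (L * L ^ (1 / 2 : ℝ)) := by
                gcongr
            _ = _ := by ring
        rw [e4]
        have e8 : L ^ (1 / 2 : ℝ) ≤ (L + m) ^ (1 / 2 : ℝ) :=
          Real.rpow_le_rpow hL0.le (by linarith) (by norm_num)
        calc (2 * c * L) ^ (3 / 2 : ℝ) * l ≤ (2 * c * L * L ^ (1 / 2 : ℝ)) * l := by gcongr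
          _ ≤ (2 * c * L * (L + m) ^ (1 / 2 : ℝ)) * l := by gcongr
          _ = _ := by ring
      rw [mul_add]
      linarith
    gcongr
  have hcard : (F.card : ℝ) = ∑ i ∈ Finset.range J, ((F.filter (fun χ => j χ = i)).card : ℝ) := by
    have := Finset.card_eq_sum_card_fiberwise (f := j) (s := F) (t := Finset.range J) hmaps
    exact_mod_cast this
  rw [hcard]
  calc ∑ i ∈ Finset.range J, ((F.filter (fun χ => j χ = i)).card : ℝ)
      ≤ (Finset.range J).card • (C * Real.exp (C * (6 * c * L))) :=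
        Finset.sum_le_card_nsmul _ _ _ hfib
    _ = (J : ℝ) * (C * Real.exp (C * (6 * c * L))) := by rw [nsmul_eq_mul, Finset.card_range]
    _ ≤ (5 * v) * (C * Real.exp (C * (6 * c * L))) := by gcongr
    _ = 5 * C * (Real.exp (c * L) * Real.exp (C * (6 * c * L))) := by
        have : v = Real.exp (c * L) := by
          rw [hv, Real.rpow_def_of_pos (by linarith), mul_comm]
        rw [this]; ring
    _ = 5 * C * Real.exp (c * (1 + 6 * C) * L) := by
        rw [← Real.exp_add]; congr 2; ring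
    _ ≤ 5 * C * Real.exp (ε * L) := by gcongr
    _ = 5 * C * Q ^ ε := by rw [Real.rpow_def_of_pos (by linarith), mul_comm ε]

/-- From finite subsets to `encard`. -/
lemma encard_le_of_finset {α : Type*} {A : Set α} {B : ℝ} (_hB : 0 ≤ B)
    (h : ∀ F : Finset α, (∀ x ∈ F, x ∈ A) → (F.card : ℝ) ≤ B) :
    ((A.encard : ℕ∞) : ENNReal) ≤ ENNReal.ofReal B := by
  classical
  rcases A.finite_or_infinite with hA | hA
  · have h1 := h hA.toFinset (fun x hx => hA.mem_toFinset.1 hx)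
    have h2 : A.encard = ((hA.toFinset.card : ℕ) : ℕ∞) := hA.encard_eq_coe_toFinset_card
    rw [h2]
    simp only [ENat.toENNReal_coe]
    rw [← ENNReal.ofReal_natCast]
    exact ENNReal.ofReal_le_ofReal h1
  · exfalso
    obtain ⟨F, hF1, hF2⟩ := hA.exists_subset_card_eq (⌊B⌋₊ + 1)
    have h1 := h F (fun x hx => hF1 hx)
    rw [hF2] at h1
    have h2 := Nat.lt_floor_add_one B
    push_cast at h1
    linarith

end Vale.Agent.P026.H267
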