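import Mathlib
import Vale.Agent.P026.H267.AlmostChars

open Finset

namespace Vale.Agent.P026.H267

open Vale.Agent.P026.H392 (LL MM)

/-- The pair `(χ, k)` is *bad* for `c`: `L(s, χ)` has a zero `ρ` with `|Im ρ| < 2^(k+1)`, and
`|Im ρ| ≥ 2^k` if `k ≥ 1`, and
`Re ρ ≥ 1 - c ((log q + log (k + 2)) / (log q + k + 1))^{2/3}`. -/
def BadPair (c : ℝ) (χ : CharIdx) (k : ℕ) : Prop :=
  ∃ ρ : ℂ, Lf χ ρ = 0 ∧ |ρ.im| < (2 : ℝ) ^ (k + 1) ∧ (k = 0 ∨ (2 : ℝ) ^ k ≤ |ρ.im|) ∧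
    1 - c * ((Real.log ((χ.1 : ℕ) : ℝ) + Real.log ((k : ℝ) + 2)) /
      (Real.log ((χ.1 : ℕ) : ℝ) + k + 1)) ^ (2 / 3 : ℝ) ≤ ρ.re

/-- `λ = i + j + 2`, `b = i + 2^(j+1)`, `d = 4 c (λ/b)^{2/3}`. -/
noncomputable def dpar (c : ℝ) (i j : ℕ) : ℝ :=
  4 * c * ((((i : ℝ) + j + 2) / ((i : ℝ) + 2 ^ (j + 1))) ^ (2 / 3 : ℝ))

lemma lam_le_b (i j : ℕ) : (i : ℝ) + j + 2 ≤ (i : ℝ) + 2 ^ (j + 1) := by
  have h2j : ((j : ℝ) + 2) ≤ 2 ^ (j + 1) := by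
    have : j + 2 ≤ 2 ^ (j + 1) := by
      have := Nat.lt_two_pow_self (n := j + 1)
      omega
    exact_mod_cast this
  linarith

lemma dpar_nonneg {c : ℝ} (hc : 0 < c) (i j : ℕ) : 0 ≤ dpar c i j := by
  unfold dpar; positivity

lemma dpar_le {c : ℝ} (_hc : 0 < c) (hc16 : c ≤ 1 / 16) (i j : ℕ) : dpar c i j ≤ 1 / 4 := by
  unfold dpar
  have hb0 : (0 : ℝ) < (i : ℝ) + 2 ^ (j + 1) := by positivity
  have hratio : ((i : ℝ) + j + 2) / ((i : ℝ) + 2 ^ (j + 1)) ≤ 1 := by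
    rw [div_le_one hb0]; exact lam_le_b i j
  have h1 : (((i : ℝ) + j + 2) / ((i : ℝ) + 2 ^ (j + 1))) ^ (2 / 3 : ℝ) ≤ 1 :=
    Real.rpow_le_one (by positivity) hratio (by norm_num)
  calc _ ≤ 4 * (1 / 16) * (1 : ℝ) := by gcongr
    _ = 1 / 4 := by norm_num

lemma block_T_ge (j : ℕ) : (3 : ℝ) ≤ (2 : ℝ) ^ (2 ^ (j + 1)) := by
  calc (3 : ℝ) ≤ 2 ^ 2 := by norm_num
    _ ≤ 2 ^ (2 ^ (j + 1)) := pow_le_pow_right₀ (by norm_num) (by
        calc 2 = 2 ^ 1 := by norm_num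
          _ ≤ 2 ^ (j + 1) := Nat.pow_le_pow_right (by norm_num) (by omega))

lemma pair_EE {c : ℝ} (hc : 0 < c) (hc16 : c ≤ 1 / 16) (i j : ℕ) :
    EE ((2 : ℝ) ^ (i + 1)) ((2 : ℝ) ^ (2 ^ (j + 1))) (dpar c i j) ≤
      12 * c * ((i : ℝ) + j + 2) := by
  have hl2 : (0.69 : ℝ) < Real.log 2 := by have := Real.log_two_gt_d9; linarith
  have hl2' : Real.log 2 < 0.7 := by have := Real.log_two_lt_d9; linarith
  obtain ⟨lam, hlam⟩ : ∃ lam : ℝ, lam = (i : ℝ) + j + 2 := ⟨_, rfl⟩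
  obtain ⟨b, hb⟩ : ∃ b : ℝ, b = (i : ℝ) + 2 ^ (j + 1) := ⟨_, rfl⟩
  obtain ⟨Q, hQ⟩ : ∃ Q : ℝ, Q = (2 : ℝ) ^ (i + 1) := ⟨_, rfl⟩
  obtain ⟨T, hT⟩ : ∃ T : ℝ, T = (2 : ℝ) ^ (2 ^ (j + 1)) := ⟨_, rfl⟩
  obtain ⟨d, hd⟩ : ∃ d : ℝ, d = 4 * c * (lam / b) ^ (2 / 3 : ℝ) := ⟨_, rfl⟩
  have hdd : dpar c i j = d := by unfold dpar; rw [hd, hlam, hb]
  rw [hdd, ← hQ, ← hT, ← hlam]
  have hi0 : (0 : ℝ) ≤ i := Nat.cast_nonneg _
  have hj0 : (0 : ℝ) ≤ j := Nat.cast_nonneg _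
  have hlamb : lam ≤ b := by rw [hlam, hb]; exact lam_le_b i j
  have hlam0 : 0 < lam := by linarith
  have hb0 : 0 < b := by linarith
  have hT3 : 3 ≤ T := by rw [hT]; exact block_T_ge j
  have hlogQ : Real.log Q = ((i : ℝ) + 1) * Real.log 2 := by
    rw [hQ, Real.log_pow]; push_cast; ring
  have hlogT : Real.log T = (2 : ℝ) ^ (j + 1) * Real.log 2 := by
    rw [hT, Real.log_pow]; push_cast; ring
  have hd0 : 0 ≤ d := by rw [hd]; positivity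
  have h2j0 : (0 : ℝ) < 2 ^ (j + 1) := by positivity
  have hlb : lam ^ (2 / 3 : ℝ) * lam ^ (1 / 3 : ℝ) = lam := by
    rw [← Real.rpow_add hlam0]; norm_num
  have hdexp : d * b ^ (2 / 3 : ℝ) = 4 * c * lam ^ (2 / 3 : ℝ) := by
    rw [hd, Real.div_rpow hlam0.le hb0.le]
    field_simp
  have e1 : d * Real.log Q ≤ 4 * c * lam := by
    have f1 : Real.log Q ≤ b ^ (2 / 3 : ℝ) * lam ^ (1 / 3 : ℝ) := by
      have g0 : Real.log Q ≤ (i : ℝ) + 1 := by rw [hlogQ]; nlinarith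
      have g1 : ((i : ℝ) + 1) ^ (2 / 3 : ℝ) * ((i : ℝ) + 1) ^ (1 / 3 : ℝ) = (i : ℝ) + 1 := by
        rw [← Real.rpow_add (by positivity)]; norm_num
      refine g0.trans (g1.symm.le.trans ?_)
      apply mul_le_mul
      · exact Real.rpow_le_rpow (by positivity) (by linarith) (by norm_num)
      · exact Real.rpow_le_rpow (by positivity) (by linarith) (by norm_num)
      · positivity
      · positivity
    calc d * Real.log Q ≤ d * (b ^ (2 / 3 : ℝ) * lam ^ (1 / 3 : ℝ)) := by gcongr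
      _ = (d * b ^ (2 / 3 : ℝ)) * lam ^ (1 / 3 : ℝ) := by ring
      _ = 4 * c * (lam ^ (2 / 3 : ℝ) * lam ^ (1 / 3 : ℝ)) := by rw [hdexp]; ring
      _ = 4 * c * lam := by rw [hlb]
  have e2 : d * (Real.log T ^ (2 / 3 : ℝ) * Real.log (Real.log T) ^ (1 / 3 : ℝ))
      ≤ 4 * c * lam := by
    have hlT := one_lt_log hT3
    have hll := loglog_pos hT3
    have f0 : Real.log T ≤ 2 ^ (j + 1) := by rw [hlogT]; nlinarith
    have f1 : Real.log (Real.log T) ≤ lam := by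
      have g1 : Real.log (Real.log T) ≤ Real.log ((2 : ℝ) ^ (j + 1)) :=
        Real.log_le_log (by linarith) f0
      rw [Real.log_pow] at g1
      push_cast at g1
      have g2 : ((j : ℝ) + 1) * Real.log 2 ≤ ((j : ℝ) + 1) * 1 := by gcongr; linarith
      linarith
    calc d * (Real.log T ^ (2 / 3 : ℝ) * Real.log (Real.log T) ^ (1 / 3 : ℝ))
        ≤ d * (b ^ (2 / 3 : ℝ) * lam ^ (1 / 3 : ℝ)) := by
          apply mul_le_mul_of_nonneg_left _ hd0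
          apply mul_le_mul
          · exact Real.rpow_le_rpow (by linarith) (by linarith) (by norm_num)
          · exact Real.rpow_le_rpow hll.le f1 (by norm_num)
          · positivity
          · positivity
      _ = (d * b ^ (2 / 3 : ℝ)) * lam ^ (1 / 3 : ℝ) := by ring
      _ = 4 * c * (lam ^ (2 / 3 : ℝ) * lam ^ (1 / 3 : ℝ)) := by rw [hdexp]; ring
      _ = 4 * c * lam := by rw [hlb]
  have e3 : d ^ (3 / 2 : ℝ) * Real.log T ≤ 4 * c * lam := by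
    have f0 : Real.log T ≤ b := by rw [hlogT]; nlinarith
    have f1 : d ^ (3 / 2 : ℝ) = (4 * c) ^ (3 / 2 : ℝ) * (lam / b) := by
      rw [hd, Real.mul_rpow (by positivity) (by positivity), ← Real.rpow_mul (by positivity)]
      norm_num
    have f2 : (4 * c) ^ (3 / 2 : ℝ) ≤ 4 * c := by
      calc (4 * c) ^ (3 / 2 : ℝ) ≤ (4 * c) ^ (1 : ℝ) :=
            Real.rpow_le_rpow_of_exponent_ge (by positivity) (by linarith) (by norm_num)
        _ = 4 * c := Real.rpow_one _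
    have f3 : 0 ≤ d ^ (3 / 2 : ℝ) := by positivity
    calc d ^ (3 / 2 : ℝ) * Real.log T ≤ d ^ (3 / 2 : ℝ) * b := by gcongr
      _ = (4 * c) ^ (3 / 2 : ℝ) * lam := by rw [f1]; field_simp
      _ ≤ 4 * c * lam := by gcongr
  unfold EE LL
  rw [mul_add]
  linarith

lemma pair_width {c lq k : ℝ} (hc : 0 < c) {i j : ℕ} (hlq1 : (i : ℝ) * Real.log 2 ≤ lq)
    (hlq2 : lq ≤ ((i : ℝ) + 1) * Real.log 2) (hk1 : (2 : ℝ) ^ j ≤ k + 1)
    (hk2 : k + 1 < (2 : ℝ) ^ (j + 1)) :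
    c * ((lq + Real.log (k + 2)) / (lq + k + 1)) ^ (2 / 3 : ℝ) ≤ dpar c i j := by
  have hl2 : (0.69 : ℝ) < Real.log 2 := by have := Real.log_two_gt_d9; linarith
  have hl2' : Real.log 2 < 0.7 := by have := Real.log_two_lt_d9; linarith
  have hi0 : (0 : ℝ) ≤ i := Nat.cast_nonneg _
  have hj0 : (0 : ℝ) ≤ j := Nat.cast_nonneg _
  have h1j : (1 : ℝ) ≤ 2 ^ j := one_le_pow₀ (by norm_num)
  have hk0 : 0 ≤ k := by linarith
  have hlk : Real.log (k + 2) ≤ ((j : ℝ) + 2) * Real.log 2 := by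
    have h1 : ((j : ℝ) + 2) * Real.log 2 = Real.log ((2 : ℝ) ^ (j + 2)) := by
      rw [Real.log_pow]; push_cast; ring
    rw [h1]
    apply Real.log_le_log (by positivity)
    have h2 : (2 : ℝ) ^ (j + 2) = 2 * 2 ^ (j + 1) := by ring
    have h3 : (1 : ℝ) ≤ 2 ^ (j + 1) := one_le_pow₀ (by norm_num)
    rw [h2]; linarith
  have hlk0 : 0 ≤ Real.log (k + 2) := Real.log_nonneg (by linarith)
  have hlq0 : 0 ≤ lq := by
    have : (0 : ℝ) ≤ (i : ℝ) * Real.log 2 := by positivity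
    linarith
  unfold dpar
  obtain ⟨lam, hlam⟩ : ∃ lam : ℝ, lam = (i : ℝ) + j + 2 := ⟨_, rfl⟩
  obtain ⟨b, hb⟩ : ∃ b : ℝ, b = (i : ℝ) + 2 ^ (j + 1) := ⟨_, rfl⟩
  rw [← hlam, ← hb]
  have hlamb : lam ≤ b := by rw [hlam, hb]; exact lam_le_b i j
  have hlam0 : 0 < lam := by linarith
  have hb0 : 0 < b := by linarith
  have hnum : lq + Real.log (k + 2) ≤ 2 * lam := by
    have e1 : ((i : ℝ) + 1) * Real.log 2 ≤ ((i : ℝ) + 1) * 1 := by gcongr; linarith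
    have e2 : ((j : ℝ) + 2) * Real.log 2 ≤ ((j : ℝ) + 2) * 1 := by gcongr; linarith
    rw [hlam]; linarith
  have hden : b / 2 ≤ lq + k + 1 := by
    have e1 : (i : ℝ) * (1 / 2) ≤ (i : ℝ) * Real.log 2 := by gcongr; linarith
    have e2 : (2 : ℝ) ^ (j + 1) = 2 * 2 ^ j := by ring
    rw [hb, e2]; linarith
  have hdpos : 0 < lq + k + 1 := by linarith
  have hq : (lq + Real.log (k + 2)) / (lq + k + 1) ≤ 4 * (lam / b) := by
    rw [div_le_iff₀ hdpos]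
    calc lq + Real.log (k + 2) ≤ 2 * lam := hnum
      _ = 4 * (lam / b) * (b / 2) := by field_simp; ring
      _ ≤ _ := by gcongr
  have hpow : ((lq + Real.log (k + 2)) / (lq + k + 1)) ^ (2 / 3 : ℝ)
      ≤ 4 * (lam / b) ^ (2 / 3 : ℝ) := by
    calc _ ≤ (4 * (lam / b)) ^ (2 / 3 : ℝ) :=
          Real.rpow_le_rpow (by positivity) hq (by norm_num)
      _ = 4 ^ (2 / 3 : ℝ) * (lam / b) ^ (2 / 3 : ℝ) :=
          Real.mul_rpow (by norm_num) (by positivity)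
      _ ≤ 4 * (lam / b) ^ (2 / 3 : ℝ) := by
          gcongr
          calc (4 : ℝ) ^ (2 / 3 : ℝ) ≤ 4 ^ (1 : ℝ) :=
                Real.rpow_le_rpow_of_exponent_le (by norm_num) (by norm_num)
            _ = 4 := Real.rpow_one _
  calc _ ≤ c * (4 * (lam / b) ^ (2 / 3 : ℝ)) := by gcongr
    _ = _ := by ring

lemma pair_zero {c : ℝ} (hc : 0 < c) {i j : ℕ} {p : CharIdx × ℕ} (hprim : p.1.2.IsPrimitive)
    (hbad : BadPair c p.1 p.2) (hi : Nat.log 2 (p.1.1 : ℕ) = i) (hj : Nat.log 2 (p.2 + 1) = j) :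
    ∃ ρ : ℂ, InRegion ((2 : ℝ) ^ (i + 1)) ((2 : ℝ) ^ (2 ^ (j + 1))) (dpar c i j) (p.1, ρ) ∧
      1 ≤ zmul (p.1, ρ) ∧ |ρ.im| < (2 : ℝ) ^ (p.2 + 1) ∧ (p.2 = 0 ∨ (2 : ℝ) ^ p.2 ≤ |ρ.im|) := by
  obtain ⟨ρ, hz, him1, him2, hre⟩ := hbad
  have hq0 : (p.1.1 : ℕ) ≠ 0 := p.1.1.ne_zero
  have hq1 : (2 : ℝ) ^ i ≤ ((p.1.1 : ℕ) : ℝ) := by
    have := Nat.pow_log_le_self 2 hq0
    rw [hi] at this
    exact_mod_cast this
  have hq2 : ((p.1.1 : ℕ) : ℝ) < (2 : ℝ) ^ (i + 1) := by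
    have := Nat.lt_pow_succ_log_self (b := 2) (by norm_num) (p.1.1 : ℕ)
    rw [hi] at this
    exact_mod_cast this
  have hk1 : (2 : ℝ) ^ j ≤ (p.2 : ℝ) + 1 := by
    have := Nat.pow_log_le_self 2 (x := p.2 + 1) (by omega)
    rw [hj] at this
    exact_mod_cast this
  have hk3' := Nat.lt_pow_succ_log_self (b := 2) (by norm_num) (p.2 + 1)
  rw [hj] at hk3'
  have hk2 : (p.2 : ℝ) + 1 < (2 : ℝ) ^ (j + 1) := by exact_mod_cast hk3'
  have hqpos : (0 : ℝ) < ((p.1.1 : ℕ) : ℝ) := by exact_mod_cast p.1.1.pos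
  have hlq1 : (i : ℝ) * Real.log 2 ≤ Real.log ((p.1.1 : ℕ) : ℝ) := by
    rw [← Real.log_pow]; exact Real.log_le_log (by positivity) hq1
  have hlq2 : Real.log ((p.1.1 : ℕ) : ℝ) ≤ ((i : ℝ) + 1) * Real.log 2 := by
    have h1 : ((i : ℝ) + 1) * Real.log 2 = Real.log ((2 : ℝ) ^ (i + 1)) := by
      rw [Real.log_pow]; push_cast; ring
    rw [h1]; exact Real.log_le_log hqpos hq2.le
  have hw := pair_width hc hlq1 hlq2 hk1 hk2
  have hpw : (2 : ℝ) ^ (p.2 + 1) ≤ (2 : ℝ) ^ (2 ^ (j + 1)) :=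
    pow_le_pow_right₀ (by norm_num) hk3'.le
  obtain ⟨T, hT⟩ : ∃ T : ℝ, T = (2 : ℝ) ^ (2 ^ (j + 1)) := ⟨_, rfl⟩
  rw [← hT] at hpw ⊢
  have him3 : |ρ.im| ≤ T := him1.le.trans hpw
  have hre3 : 1 - dpar c i j ≤ ρ.re := le_trans (by linarith) hre
  have hz1 : 1 ≤ zmul (p.1, ρ) := by
    apply one_le_zmul (x := (p.1, ρ)) hz
    intro h1
    have h2 : ρ = 1 := h1
    rw [h2] at hz
    exact Lf_ne_zero_of_one_le_re hprim (by simp) hz
  exact ⟨ρ, ⟨hq2.le, hprim, hre3, him3⟩, hz1, him1, him2⟩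

lemma pair_inj {P : Finset (CharIdx × ℕ)} {r : CharIdx × ℕ → ℂ}
    (hr3 : ∀ p ∈ P, |(r p).im| < (2 : ℝ) ^ (p.2 + 1))
    (hr4 : ∀ p ∈ P, p.2 = 0 ∨ (2 : ℝ) ^ p.2 ≤ |(r p).im|) :
    Set.InjOn (fun p : CharIdx × ℕ => (p.1, r p)) (P : Set (CharIdx × ℕ)) := by
  intro p hp p' hp' hpp
  have hpp' : (p.1, r p) = (p'.1, r p') := hpp
  obtain ⟨h1, h2⟩ := Prod.ext_iff.1 hpp'
  simp only at h1 h2
  have a1 := hr3 p hp
  have a2 := hr4 p hp
  have b1 := hr3 p' hp'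
  have b2 := hr4 p' hp'
  rw [h2] at a1 a2
  have h3 : p.2 = p'.2 := by
    by_contra hne
    rcases lt_or_gt_of_ne hne with hlt | hgt
    · rcases b2 with hz | hz
      · omega
      · have h4 : (2 : ℝ) ^ p'.2 < 2 ^ (p.2 + 1) := lt_of_le_of_lt hz a1
        have h5 := (pow_lt_pow_iff_right₀ (by norm_num : (1 : ℝ) < 2)).1 h4
        omega
    · rcases a2 with hz | hz
      · omega
      · have h4 : (2 : ℝ) ^ p.2 < 2 ^ (p'.2 + 1) := lt_of_le_of_lt hz b1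
        have h5 := (pow_lt_pow_iff_right₀ (by norm_num : (1 : ℝ) < 2)).1 h4
        omega
  exact Prod.ext h1 h3

lemma pair_block {C : ℝ} (h : Density C) {c : ℝ} (hc : 0 < c) (hc16 : c ≤ 1 / 16) (i j : ℕ)
    (P : Finset (CharIdx × ℕ))
    (hP : ∀ p ∈ P, p.1.2.IsPrimitive ∧ BadPair c p.1 p.2 ∧ Nat.log 2 (p.1.1 : ℕ) = i ∧
      Nat.log 2 (p.2 + 1) = j) :
    (P.card : ℝ) ≤ C * Real.exp (C * (12 * c * ((i : ℝ) + j + 2))) := by
  classical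
  have hC := h.1
  have hex : ∀ p ∈ P, ∃ ρ : ℂ, InRegion ((2 : ℝ) ^ (i + 1)) ((2 : ℝ) ^ (2 ^ (j + 1)))
      (dpar c i j) (p.1, ρ) ∧ 1 ≤ zmul (p.1, ρ) ∧
      |ρ.im| < (2 : ℝ) ^ (p.2 + 1) ∧ (p.2 = 0 ∨ (2 : ℝ) ^ p.2 ≤ |ρ.im|) := fun p hp =>
    pair_zero hc (hP p hp).1 (hP p hp).2.1 (hP p hp).2.2.1 (hP p hp).2.2.2
  choose! r hr1 hr2 hr3 hr4 using hex
  have hinj := pair_inj hr3 hr4
  have h1 := h.2 ((2 : ℝ) ^ (i + 1)) (one_le_pow₀ (by norm_num)) ((2 : ℝ) ^ (2 ^ (j + 1)))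
    (block_T_ge j) (dpar c i j) (dpar_nonneg hc i j) (dpar_le hc hc16 i j)
    (P.image (fun p : CharIdx × ℕ => (p.1, r p))) (by
    intro x hx
    obtain ⟨p, hp, rfl⟩ := Finset.mem_image.1 hx
    exact hr1 p hp)
  have h2 : (P.card : ℝ) ≤ ∑ x ∈ P.image (fun p : CharIdx × ℕ => (p.1, r p)), (zmul x : ℝ) := by
    rw [Finset.sum_image hinj]
    calc (P.card : ℝ) = ∑ p ∈ P, (1 : ℝ) := by simp
      _ ≤ ∑ p ∈ P, (zmul (p.1, r p) : ℝ) := by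
          refine Finset.sum_le_sum fun p hp => ?_
          exact_mod_cast hr2 p hp
  refine (h2.trans h1).trans ?_
  have hE := pair_EE hc hc16 i j
  apply mul_le_mul_of_nonneg_left _ hC.le
  exact Real.exp_le_exp.2 (mul_le_mul_of_nonneg_left hE hC.le)

lemma geom_le {x : ℝ} (hx : 1 < x) (n : ℕ) :
    ∑ i ∈ Finset.range (n + 1), x ^ i ≤ x / (x - 1) * x ^ n := by
  have hx1 : 0 < x - 1 := by linarith
  rw [geom_sum_eq hx.ne', div_le_iff₀ hx1]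
  have h1 : x / (x - 1) * x ^ n * (x - 1) = x ^ (n + 1) := by
    field_simp
    ring
  rw [h1]
  linarith

/-- **Few bad pairs.** -/
theorem few_bad_pairs {C : ℝ} (h : Density C) {ε : ℝ} (hε : 0 < ε) :
    ∃ c : ℝ, 0 < c ∧ ∃ C' : ℝ, 0 ≤ C' ∧ ∀ Q : ℝ, 1 ≤ Q → ∀ K : ℕ, 1 ≤ K →
      ∀ P : Finset (CharIdx × ℕ),
      (∀ p ∈ P, p.1.2.IsPrimitive ∧ ((p.1.1 : ℕ) : ℝ) ≤ Q ∧ p.2 ≤ K ∧ BadPair c p.1 p.2) →
      (P.card : ℝ) ≤ C' * (Q * K) ^ ε := by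
  classical
  have hC := h.1
  have hl2 : (0 : ℝ) < Real.log 2 := Real.log_pos (by norm_num)
  obtain ⟨c, hc0, hc16, hcε⟩ : ∃ c : ℝ, 0 < c ∧ c ≤ 1 / 16 ∧ C * (12 * c) ≤ ε * Real.log 2 := by
    refine ⟨min (1 / 16) (ε * Real.log 2 / (12 * C)), lt_min (by norm_num) (by positivity),
      min_le_left _ _, ?_⟩
    calc C * (12 * min (1 / 16) (ε * Real.log 2 / (12 * C)))
        ≤ C * (12 * (ε * Real.log 2 / (12 * C))) := by
          gcongr; exact min_le_right _ _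
      _ = ε * Real.log 2 := by field_simp
  obtain ⟨x, hx⟩ : ∃ x : ℝ, x = (2 : ℝ) ^ ε := ⟨_, rfl⟩
  have hx1 : 1 < x := by rw [hx]; exact Real.one_lt_rpow (by norm_num) hε
  have hx0 : 0 < x := by linarith
  have hxx : 0 ≤ x / (x - 1) := div_nonneg hx0.le (by linarith)
  refine ⟨c, hc0, C * x ^ 2 * (x / (x - 1)) ^ 2 * x, by positivity, ?_⟩
  intro Q hQ K hK P hP
  set I := Nat.log 2 ⌊Q⌋₊ with hI
  set J := Nat.log 2 (K + 1) with hJ
  have hmaps : ∀ p ∈ P, (Nat.log 2 (p.1.1 : ℕ), Nat.log 2 (p.2 + 1)) ∈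
      Finset.range (I + 1) ×ˢ Finset.range (J + 1) := by
    intro p hp
    obtain ⟨_, hq, hk, _⟩ := hP p hp
    rw [Finset.mem_product, Finset.mem_range, Finset.mem_range]
    constructor
    · have : Nat.log 2 (p.1.1 : ℕ) ≤ I := Nat.log_mono_right (Nat.le_floor hq)
      omega
    · have : Nat.log 2 (p.2 + 1) ≤ J := Nat.log_mono_right (by omega)
      omega
  have hcard : (P.card : ℝ) = ∑ ij ∈ Finset.range (I + 1) ×ˢ Finset.range (J + 1),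
      ((P.filter (fun p => (Nat.log 2 (p.1.1 : ℕ), Nat.log 2 (p.2 + 1)) = ij)).card : ℝ) := by
    have := Finset.card_eq_sum_card_fiberwise
      (f := fun p : CharIdx × ℕ => (Nat.log 2 (p.1.1 : ℕ), Nat.log 2 (p.2 + 1))) (s := P)
      (t := Finset.range (I + 1) ×ˢ Finset.range (J + 1)) hmaps
    exact_mod_cast this
  have hfib : ∀ ij ∈ Finset.range (I + 1) ×ˢ Finset.range (J + 1),
      ((P.filter (fun p => (Nat.log 2 (p.1.1 : ℕ), Nat.log 2 (p.2 + 1)) = ij)).card : ℝ)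
      ≤ C * x ^ 2 * (x ^ ij.1 * x ^ ij.2) := by
    intro ij _
    have h1 := pair_block h hc0 hc16 ij.1 ij.2
      (P.filter (fun p => (Nat.log 2 (p.1.1 : ℕ), Nat.log 2 (p.2 + 1)) = ij)) (by
      intro p hp
      rw [Finset.mem_filter] at hp
      obtain ⟨hpP, hpij⟩ := hp
      exact ⟨(hP p hpP).1, (hP p hpP).2.2.2, (Prod.ext_iff.1 hpij).1, (Prod.ext_iff.1 hpij).2⟩)
    refine h1.trans ?_
    have h2 : Real.exp (C * (12 * c * ((ij.1 : ℝ) + ij.2 + 2)))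
        ≤ Real.exp (((ij.1 : ℝ) + ij.2 + 2) * (ε * Real.log 2)) := by
      apply Real.exp_le_exp.2
      have h3 : 0 ≤ (ij.1 : ℝ) + ij.2 + 2 := by positivity
      calc C * (12 * c * ((ij.1 : ℝ) + ij.2 + 2)) = ((ij.1 : ℝ) + ij.2 + 2) * (C * (12 * c)) := by
            ring
        _ ≤ ((ij.1 : ℝ) + ij.2 + 2) * (ε * Real.log 2) := by gcongr
    have h4 : Real.exp (((ij.1 : ℝ) + ij.2 + 2) * (ε * Real.log 2))
        = x ^ 2 * (x ^ ij.1 * x ^ ij.2) := by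
      have h5 : x = Real.exp (ε * Real.log 2) := by
        rw [hx, Real.rpow_def_of_pos (by norm_num), mul_comm]
      rw [h5, ← Real.exp_nat_mul, ← Real.exp_nat_mul, ← Real.exp_nat_mul, ← Real.exp_add,
        ← Real.exp_add]
      congr 1
      push_cast; ring
    calc C * Real.exp (C * (12 * c * ((ij.1 : ℝ) + ij.2 + 2)))
        ≤ C * (x ^ 2 * (x ^ ij.1 * x ^ ij.2)) := by rw [← h4]; gcongr
      _ = _ := by ring
  have hQpow : x ^ I ≤ Q ^ ε := by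
    have h1 : (2 : ℝ) ^ I ≤ Q := by
      have h2 : 2 ^ I ≤ ⌊Q⌋₊ := Nat.pow_log_le_self 2 (by
        have := (Nat.floor_pos).2 hQ
        omega)
      have h3 : ((2 ^ I : ℕ) : ℝ) ≤ Q := le_trans (by exact_mod_cast h2) (Nat.floor_le (by linarith))
      exact_mod_cast h3
    rw [hx, ← Real.rpow_natCast, ← Real.rpow_mul (by norm_num), mul_comm ε,
      Real.rpow_mul (by norm_num), Real.rpow_natCast]
    exact Real.rpow_le_rpow (by positivity) h1 hε.le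
  have hKpow : x ^ J ≤ x * (K : ℝ) ^ ε := by
    have hK1 : (1 : ℝ) ≤ K := by exact_mod_cast hK
    have h1 : (2 : ℝ) ^ J ≤ 2 * K := by
      have h2 : 2 ^ J ≤ K + 1 := Nat.pow_log_le_self 2 (by omega)
      have h3 : ((2 ^ J : ℕ) : ℝ) ≤ ((K + 1 : ℕ) : ℝ) := by exact_mod_cast h2
      push_cast at h3
      linarith
    have h4 : x ^ J = ((2 : ℝ) ^ J) ^ ε := by
      rw [hx, ← Real.rpow_natCast, ← Real.rpow_mul (by norm_num), mul_comm ε,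
        Real.rpow_mul (by norm_num), Real.rpow_natCast]
    rw [h4, hx, ← Real.mul_rpow (by norm_num) (by linarith)]
    exact Real.rpow_le_rpow (by positivity) h1 hε.le
  rw [hcard]
  calc ∑ ij ∈ Finset.range (I + 1) ×ˢ Finset.range (J + 1),
      ((P.filter (fun p => (Nat.log 2 (p.1.1 : ℕ), Nat.log 2 (p.2 + 1)) = ij)).card : ℝ)
      ≤ ∑ ij ∈ Finset.range (I + 1) ×ˢ Finset.range (J + 1),
        C * x ^ 2 * (x ^ ij.1 * x ^ ij.2) := Finset.sum_le_sum hfib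
    _ = C * x ^ 2 * ((∑ i ∈ Finset.range (I + 1), x ^ i) *
        (∑ j ∈ Finset.range (J + 1), x ^ j)) := by
        rw [← Finset.mul_sum, Finset.sum_product, Finset.sum_mul_sum]
    _ ≤ C * x ^ 2 * ((x / (x - 1) * x ^ I) * (x / (x - 1) * x ^ J)) := by
        have h1 := geom_le hx1 I
        have h2 := geom_le hx1 J
        have h3 : 0 ≤ ∑ j ∈ Finset.range (J + 1), x ^ j :=
          Finset.sum_nonneg fun j _ => by positivity
        gcongr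
    _ ≤ C * x ^ 2 * ((x / (x - 1) * Q ^ ε) * (x / (x - 1) * (x * (K : ℝ) ^ ε))) := by
        gcongr
    _ = C * x ^ 2 * (x / (x - 1)) ^ 2 * x * (Q * K) ^ ε := by
        rw [Real.mul_rpow (by linarith) (Nat.cast_nonneg _)]
        ring

end Vale.Agent.P026.H267
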