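import Mathlib
import Vale.Agent.P026.H267.Corollaries

open Finset Filter Topology

namespace Vale.Agent.P026.H267

open Vale.Agent.P026.H392 (LL MM)

/-- Deuring–Heilbronn repulsion in Vinogradov–Korobov form (to be supplied). -/
def DHProp (c C d0 : ℝ) : Prop :=
  ∀ Q : ℝ, 1 ≤ Q → ∀ T : ℝ, 3 ≤ T → ∀ d : ℝ, 0 ≤ d → d ≤ d0 →
    ∀ χ₁ : CharIdx, ((χ₁.1 : ℕ) : ℝ) ≤ Q → χ₁.2.IsPrimitive → χ₁.2 ^ 2 = 1 → χ₁.2 ≠ 1 →
    ∀ δ₁ : ℝ, 0 < δ₁ → Lf χ₁ ((1 - δ₁ : ℝ) : ℂ) = 0 →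
    ∀ x : CharIdx × ℂ, InRegion Q T d x → Lf x.1 x.2 = 0 → x ≠ (χ₁, ((1 - δ₁ : ℝ) : ℂ)) →
      c * Real.exp (-(C * EE Q T d)) ≤ δ₁ * LL Q T

/-- No Siegel zeros (with constant `c`). -/
def NoSiegel (c : ℝ) : Prop :=
  ∀ χ : CharIdx, χ.2.IsPrimitive → χ.2 ^ 2 = 1 → χ.2 ≠ 1 →
    ∀ β : ℝ, 1 - c / Real.log ((χ.1 : ℕ) : ℝ) < β → β < 1 → Lf χ (β : ℂ) ≠ 0

/-- `VK T = (log T)^{2/3} (log log T)^{1/3}`. -/
lemma LL_one_tendsto : Tendsto (fun T : ℝ => LL 1 T) atTop atTop := by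
  have h1 : Tendsto (fun T : ℝ => Real.log T ^ (2 / 3 : ℝ)) atTop atTop :=
    (tendsto_rpow_atTop (by norm_num)).comp Real.tendsto_log_atTop
  have h2 : Tendsto (fun T : ℝ => Real.log (Real.log T) ^ (1 / 3 : ℝ)) atTop atTop :=
    (tendsto_rpow_atTop (by norm_num)).comp (Real.tendsto_log_atTop.comp Real.tendsto_log_atTop)
  have h3 := h1.atTop_mul_atTop₀ h2
  refine h3.congr fun T => ?_
  rw [LL_one]

lemma continuousOn_LL_one : ContinuousOn (fun T : ℝ => LL 1 T) (Set.Ici 3) := by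
  have h : ∀ T ∈ Set.Ici (3 : ℝ), ContinuousAt (fun T : ℝ => LL 1 T) T := by
    intro T hT
    have hT3 : (3 : ℝ) ≤ T := hT
    have h1 := one_lt_log hT3
    have h2 := loglog_pos hT3
    have hc1 : ContinuousAt Real.log T := Real.continuousAt_log (by linarith)
    have hc2 : ContinuousAt (fun T => Real.log (Real.log T)) T :=
      (Real.continuousAt_log (by linarith)).comp hc1
    have hc3 : ContinuousAt (fun T : ℝ => Real.log T ^ (2 / 3 : ℝ)) T :=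
      hc1.rpow_const (Or.inl (by linarith))
    have hc4 : ContinuousAt (fun T : ℝ => Real.log (Real.log T) ^ (1 / 3 : ℝ)) T :=
      hc2.rpow_const (Or.inl (by linarith))
    refine (hc3.mul hc4).congr ?_
    filter_upwards with T
    rw [LL_one]
    rfl
  exact fun T hT => (h T hT).continuousWithinAt

/-- For every large `y` there is `T ≥ T0` with `VK T = y`. -/
lemma exists_T (T0 : ℝ) (hT0 : 3 ≤ T0) {y : ℝ} (hy : LL 1 T0 ≤ y) :
    ∃ T : ℝ, T0 ≤ T ∧ LL 1 T = y := by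
  obtain ⟨T1, hT1, hT1'⟩ : ∃ T1, T0 ≤ T1 ∧ y ≤ LL 1 T1 := by
    have h1 := (LL_one_tendsto.eventually_ge_atTop y).and (eventually_ge_atTop T0)
    obtain ⟨T1, h2, h3⟩ := h1.exists
    exact ⟨T1, h3, h2⟩
  have hc : ContinuousOn (fun T : ℝ => LL 1 T) (Set.Icc T0 T1) :=
    continuousOn_LL_one.mono fun T hT => hT0.trans hT.1
  have h := intermediate_value_Icc hT1 hc
  obtain ⟨T, hT, hT'⟩ := h ⟨hy, hT1'⟩
  exact ⟨T, hT.1, hT'⟩

/-- Real zeros of the finitely many quadratic characters of bounded modulus stay away from `1`. -/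
lemma bounded_modulus (M : ℝ) : ∃ ε : ℝ, 0 < ε ∧ ∀ χ : CharIdx, ((χ.1 : ℕ) : ℝ) ≤ M → χ.2 ≠ 1 →
    ∀ β : ℝ, 1 - ε < β → β < 1 → Lf χ (β : ℂ) ≠ 0 := by
  classical
  -- for each nontrivial character
  have h1 : ∀ χ : CharIdx, χ.2 ≠ 1 → ∃ ε : ℝ, 0 < ε ∧ ∀ β : ℝ, 1 - ε < β → β < 1 →
      Lf χ (β : ℂ) ≠ 0 := by
    intro χ hχ
    have hc : ContinuousAt (fun β : ℝ => Lf χ (β : ℂ)) 1 := by
      have hd : Differentiable ℂ (Lf χ) := DirichletCharacter.differentiable_LFunction hχ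
      exact (hd.continuous.comp Complex.continuous_ofReal).continuousAt
    have h0 : Lf χ ((1 : ℝ) : ℂ) ≠ 0 := by
      have := DirichletCharacter.LFunction_ne_zero_of_one_le_re χ.2 (s := 1) (Or.inl hχ) (by simp)
      simpa [Lf] using this
    have h2 := hc.eventually_ne h0
    rw [Metric.eventually_nhds_iff] at h2
    obtain ⟨ε, hε, h3⟩ := h2
    refine ⟨ε, hε, fun β hβ1 hβ2 => h3 ?_⟩
    rw [Real.dist_eq, abs_lt]
    constructor <;> linarith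
  choose! e he1 he2 using h1
  set q0 : ℕ+ := ⟨⌊M⌋₊ + 1, Nat.succ_pos _⟩ with hq0
  set F : Finset CharIdx := (Finset.Icc (1 : ℕ+) q0).sigma (fun _ => Finset.univ) with hF
  have hmem : ∀ χ : CharIdx, ((χ.1 : ℕ) : ℝ) ≤ M → χ ∈ F := by
    intro χ hχ
    rw [hF, Finset.mem_sigma]
    refine ⟨?_, Finset.mem_univ _⟩
    rw [Finset.mem_Icc]
    refine ⟨one_le, ?_⟩
    rw [← PNat.coe_le_coe]
    have := Nat.le_floor hχ
    simp only [hq0, PNat.mk_coe]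
    omega
  set F' := F.filter (fun χ => χ.2 ≠ 1) with hF'
  rcases F'.eq_empty_or_nonempty with hemp | hne
  · refine ⟨1, one_pos, fun χ hχ hχ1 => ?_⟩
    have : χ ∈ F' := Finset.mem_filter.2 ⟨hmem χ hχ, hχ1⟩
    rw [hemp] at this
    simp at this
  · refine ⟨F'.inf' hne e, ?_, ?_⟩
    · rw [Finset.lt_inf'_iff]
      intro χ hχ
      exact he1 χ (Finset.mem_filter.1 hχ).2
    · intro χ hχ hχ1 β hβ1 hβ2
      have hmem' : χ ∈ F' := Finset.mem_filter.2 ⟨hmem χ hχ, hχ1⟩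
      have h3 : F'.inf' hne e ≤ e χ := Finset.inf'_le _ hmem'
      exact he2 χ hχ1 β (by linarith) hβ2

lemma three_le_of_ne_one {χ : CharIdx} (hne : χ.2 ≠ 1) : 3 ≤ (χ.1 : ℕ) := by
  by_contra hcon
  push Not at hcon
  have hcard : Nat.card (DirichletCharacter ℂ (χ.1 : ℕ)) = 1 := by
    rw [DirichletCharacter.card_eq_totient_of_hasEnoughRootsOfUnity]
    have hpos := χ.1.pos
    have h12 : (χ.1 : ℕ) = 1 ∨ (χ.1 : ℕ) = 2 := by omega
    rcases h12 with h | h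
    · rw [h]; rfl
    · rw [h]; rfl
  have hsub : Subsingleton (DirichletCharacter ℂ (χ.1 : ℕ)) := (Nat.card_eq_one_iff_unique.1 hcard).1
  exact hne (Subsingleton.elim _ _)

/-- **Dichotomy.** -/
theorem dichotomy {c C d0 : ℝ} (hc : 0 < c) (hC : 0 < C) (hd0 : 0 < d0) (h : DHProp c C d0) :
    (∃ c : ℝ, 0 < c ∧ NoSiegel c) ∨
    (∀ K T0 : ℝ, ∃ T : ℝ, T0 ≤ T ∧ 3 ≤ T ∧ ∃ x₁ : CharIdx × ℂ, x₁.1.2 ≠ 1 ∧
      ∀ x : CharIdx × ℂ, x.1.2.IsPrimitive → x ≠ x₁ →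
        Real.log ((x.1.1 : ℕ) : ℝ) ≤ LL 1 T → |x.2.im| ≤ T → 1 - K / LL 1 T ≤ x.2.re →
          Lf x.1 x.2 ≠ 0) := by
  by_cases hS : ∃ c : ℝ, 0 < c ∧ NoSiegel c
  · left; exact hS
  right
  push Not at hS
  intro K' T0'
  set K := max K' 1 with hK
  have hK1 : 1 ≤ K := le_max_right _ _
  have hKK : K' ≤ K := le_max_left _ _
  -- enlarge T0 so that `K / VK T ≤ d0`
  obtain ⟨T0, hT03, hT0T, hT0d⟩ : ∃ T0 : ℝ, 3 ≤ T0 ∧ T0' ≤ T0 ∧ K / d0 ≤ LL 1 T0 := by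
    have h1 := (LL_one_tendsto.eventually_ge_atTop (K / d0)).and
      ((eventually_ge_atTop (3 : ℝ)).and (eventually_ge_atTop T0'))
    obtain ⟨T, h2, h3, h4⟩ := h1.exists
    exact ⟨T, h3, h4, h2⟩
  -- the quality of the Siegel zero
  set E0 : ℝ := C * (2 * K + K ^ (3 / 2 : ℝ) * k3) with hE0
  obtain ⟨ε, hε, hbd⟩ := bounded_modulus (Real.exp (LL 1 T0))
  set c1 : ℝ := min (c * Real.exp (-E0) / 4) (ε / 2) with hc1
  have hc10 : 0 < c1 := lt_min (by positivity) (by positivity)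
  have hns := hS c1 hc10
  unfold NoSiegel at hns
  push Not at hns
  obtain ⟨χ₁, hprim, hsq, hne, β, hβ1, hβ2, hβ0⟩ := hns
  -- modulus at least 3
  have hq3 : 1 < Real.log ((χ₁.1 : ℕ) : ℝ) := by
    apply one_lt_log
    exact_mod_cast three_le_of_ne_one hne
  have hqlarge : Real.exp (LL 1 T0) < ((χ₁.1 : ℕ) : ℝ) := by
    by_contra hcon
    push Not at hcon
    refine hbd χ₁ hcon hne β ?_ hβ2 hβ0
    have h1 : c1 / Real.log ((χ₁.1 : ℕ) : ℝ) ≤ c1 := div_le_self hc10.le hq3.le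
    have h2 : c1 ≤ ε / 2 := min_le_right _ _
    linarith
  have hq0 : (0 : ℝ) < ((χ₁.1 : ℕ) : ℝ) := by exact_mod_cast χ₁.1.pos
  have hlogq : LL 1 T0 ≤ Real.log ((χ₁.1 : ℕ) : ℝ) := by
    rw [Real.le_log_iff_exp_le hq0]; exact hqlarge.le
  obtain ⟨T, hT0T1, hTeq⟩ := exists_T T0 hT03 hlogq
  have hT3 : 3 ≤ T := hT03.trans hT0T1
  have hVpos : 0 < LL 1 T := LL_pos le_rfl hT3
  refine ⟨T, hT0T.trans hT0T1, hT3, (χ₁, (β : ℂ)), hne, ?_⟩
  intro x hxp hxne hxq hxim hxre hzero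
  set Q : ℝ := Real.exp (LL 1 T) with hQ
  have hQ1 : 1 ≤ Q := Real.one_le_exp hVpos.le
  have hLLQ : LL Q T = 2 * LL 1 T := by
    have h3 : LL Q T = Real.log Q + LL 1 T := by
      unfold LL; rw [Real.log_one]; ring
    rw [h3, hQ, Real.log_exp]
    ring
  set d : ℝ := K / LL 1 T with hd
  have hdpos : 0 ≤ d := by positivity
  have hdd0 : d ≤ d0 := by
    rw [hd, div_le_iff₀ hVpos]
    have h1 : LL 1 T0 ≤ LL 1 T := LL_one_mono hT03 hT0T1
    have h2 := hT0d.trans h1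
    rw [div_le_iff₀ hd0] at h2
    linarith
  have hreg : InRegion Q T d x := by
    refine ⟨?_, hxp, ?_, hxim⟩
    · have hq0 : (0 : ℝ) < ((x.1.1 : ℕ) : ℝ) := by exact_mod_cast x.1.1.pos
      rw [← Real.exp_log hq0]
      exact Real.exp_le_exp.2 hxq
    · have : K' / LL 1 T ≤ d := by rw [hd]; gcongr
      linarith
  have hq1Q : ((χ₁.1 : ℕ) : ℝ) ≤ Q := by
    rw [hQ, hTeq, Real.exp_log hq0]
  have hδ : Lf χ₁ ((1 - (1 - β) : ℝ) : ℂ) = 0 := by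
    rw [show (1 - (1 - β) : ℝ) = β by ring]; exact hβ0
  have hDH := h Q hQ1 T hT3 d hdpos hdd0 χ₁ hq1Q hprim hsq hne (1 - β) (by linarith) hδ x hreg
    hzero (by rw [show (1 - (1 - β) : ℝ) = β by ring]; exact hxne)
  have hEE : C * EE Q T d ≤ E0 := by
    rw [hE0]
    apply mul_le_mul_of_nonneg_left _ hC.le
    unfold EE
    have h1 : d * LL Q T = 2 * K := by
      rw [hLLQ, hd]; field_simp
    have h2 : d ^ (3 / 2 : ℝ) * Real.log T ≤ K ^ (3 / 2 : ℝ) * k3 := by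
      rw [hd, Real.div_rpow (by linarith) hVpos.le, div_mul_eq_mul_div,
        div_le_iff₀ (by positivity), mul_assoc]
      have := log_le_LL_rpow (Q := 1) le_rfl hT3
      gcongr
    rw [h1]
    linarith
  have h5 : c * Real.exp (-E0) ≤ (1 - β) * LL Q T := by
    refine le_trans ?_ hDH
    apply mul_le_mul_of_nonneg_left _ hc.le
    exact Real.exp_le_exp.2 (by linarith)
  have h6 : (1 - β) * LL Q T < 2 * c1 := by
    rw [hLLQ, hTeq]
    have h7 : 1 - β < c1 / Real.log ((χ₁.1 : ℕ) : ℝ) := by linarith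
    rw [lt_div_iff₀ (by linarith)] at h7
    linarith
  have h8 : c1 ≤ c * Real.exp (-E0) / 4 := min_le_left _ _
  have h9 : 0 < c * Real.exp (-E0) := by positivity
  linarith

/-- **Exceptional density theorem**: the count of the other zeros gains a factor `δ₁ LL`. -/
theorem exceptional_density {C0 c C d0 : ℝ} (hD : Density C0) (hc : 0 < c) (hC : 0 < C)
    (h : DHProp c C d0) :
    ∃ C' : ℝ, 0 < C' ∧ ∀ Q : ℝ, 1 ≤ Q → ∀ T : ℝ, 3 ≤ T → ∀ d : ℝ, 0 ≤ d → d ≤ d0 → d ≤ 1 / 4 →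
      ∀ χ₁ : CharIdx, ((χ₁.1 : ℕ) : ℝ) ≤ Q → χ₁.2.IsPrimitive → χ₁.2 ^ 2 = 1 → χ₁.2 ≠ 1 →
      ∀ δ₁ : ℝ, 0 < δ₁ → Lf χ₁ ((1 - δ₁ : ℝ) : ℂ) = 0 →
      ∀ S : Finset (CharIdx × ℂ), (∀ x ∈ S, InRegion Q T d x ∧ x ≠ (χ₁, ((1 - δ₁ : ℝ) : ℂ))) →
        ∑ x ∈ S, (zmul x : ℝ) ≤ C' * (δ₁ * LL Q T) * Real.exp (C' * EE Q T d) := by
  classical
  have hC0 := hD.1
  refine ⟨C0 / c + (C0 + C), by positivity, ?_⟩
  intro Q hQ T hT d hd hdd hd4 χ₁ hq hp hsq hne δ₁ hδ hz S hS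
  have hE0 : 0 ≤ EE Q T d := EE_nonneg hQ hT hd
  have hLL := LL_nonneg hQ hT
  have hδL : 0 ≤ δ₁ * LL Q T := by positivity
  by_cases hex : ∃ x ∈ S, zmul x ≠ 0
  · obtain ⟨x, hx, hxz⟩ := hex
    have hx0 := zmul_ne_zero hxz (hS x hx).1.2.1
    have h1 := h Q hQ T hT d hd hdd χ₁ hq hp hsq hne δ₁ hδ hz x (hS x hx).1 hx0.1 (hS x hx).2
    have h2 := hD.2 Q hQ T hT d hd hd4 S (fun y hy => (hS y hy).1)
    have h3 : (1 : ℝ) ≤ (1 / c) * (δ₁ * LL Q T) * Real.exp (C * EE Q T d) := by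
      have h4 : c * Real.exp (-(C * EE Q T d)) * ((1 / c) * Real.exp (C * EE Q T d))
          ≤ δ₁ * LL Q T * ((1 / c) * Real.exp (C * EE Q T d)) := by
        apply mul_le_mul_of_nonneg_right h1 (by positivity)
      have h5 : c * Real.exp (-(C * EE Q T d)) * ((1 / c) * Real.exp (C * EE Q T d)) = 1 := by
        have : Real.exp (-(C * EE Q T d)) * Real.exp (C * EE Q T d) = 1 := by
          rw [← Real.exp_add]; simp
        field_simp
        exact this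
      rw [h5] at h4
      linarith
    calc ∑ x ∈ S, (zmul x : ℝ) ≤ C0 * Real.exp (C0 * EE Q T d) * 1 := by rw [mul_one]; exact h2
      _ ≤ C0 * Real.exp (C0 * EE Q T d) *
          ((1 / c) * (δ₁ * LL Q T) * Real.exp (C * EE Q T d)) := by gcongr
      _ = (C0 / c) * (δ₁ * LL Q T) * Real.exp ((C0 + C) * EE Q T d) := by
          rw [add_mul C0 C, Real.exp_add]; ring
      _ ≤ (C0 / c + (C0 + C)) * (δ₁ * LL Q T) *
          Real.exp ((C0 / c + (C0 + C)) * EE Q T d) := by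
          have h6 : 0 ≤ C0 / c := by positivity
          have h7 : C0 / c ≤ C0 / c + (C0 + C) := by linarith
          have h8 : C0 + C ≤ C0 / c + (C0 + C) := by linarith
          gcongr
  · push Not at hex
    have h1 : ∑ x ∈ S, (zmul x : ℝ) = 0 := by
      apply Finset.sum_eq_zero
      intro x hx
      rw [hex x hx]; simp
    rw [h1]
    positivity

end Vale.Agent.P026.H267
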