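import Mathlib
import Vale.Agent.P026.H267.Dichotomy

open Finset

namespace Vale.Agent.P026.H267

open Vale.Agent.P026.H392 (LL MM)

/-- `W (χ, ρ) = log q + VK (|Im ρ| + 3)`, `VK T = (log T)^{2/3} (log log T)^{1/3}`. -/
noncomputable def WW (x : CharIdx × ℂ) : ℝ :=
  Real.log ((x.1.1 : ℕ) : ℝ) + LL 1 (|x.2.im| + 3)

/-- `ρ` lies in the `K` times widened region at its own conductor and height. -/
def InW (K : ℝ) (x : CharIdx × ℂ) : Prop :=
  x.1.2.IsPrimitive ∧ 3 / 4 ≤ x.2.re ∧ 1 - K / WW x ≤ x.2.re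

open Classical in
/-- The number of zeros (with multiplicity) in that region with `W ≤ V`. -/
noncomputable def wCount (K V : ℝ) : ENNReal :=
  ∑' x : CharIdx × ℂ, if InW K x ∧ WW x ≤ V then ((zord x : ℕ∞) : ENNReal) else 0

lemma LL_three_le : LL 1 3 ≤ 1 := by
  rw [LL_one]
  have h1 := one_lt_log (T := 3) le_rfl
  have h2 := loglog_pos (T := 3) le_rfl
  have h3 : Real.log 3 ≤ 1.2 := by
    rw [Real.log_le_iff_le_exp (by norm_num)]
    have h4 : Real.exp 1.2 = Real.exp 1 * Real.exp 0.2 := by rw [← Real.exp_add]; norm_num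
    have h5 := Real.exp_one_gt_d9
    have h6 := Real.add_one_le_exp (0.2 : ℝ)
    rw [h4]
    nlinarith
  have h7 : Real.log (Real.log 3) ≤ 0.2 := by
    have := Real.log_le_sub_one_of_pos (by linarith : 0 < Real.log 3)
    linarith
  have h8 : Real.log 3 ^ (2 / 3 : ℝ) ≤ 1.2 := by
    calc Real.log 3 ^ (2 / 3 : ℝ) ≤ Real.log 3 ^ (1 : ℝ) :=
          Real.rpow_le_rpow_of_exponent_le h1.le (by norm_num)
      _ = Real.log 3 := Real.rpow_one _
      _ ≤ 1.2 := h3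
  have h9 : Real.log (Real.log 3) ^ (1 / 3 : ℝ) ≤ 0.8 := by
    calc Real.log (Real.log 3) ^ (1 / 3 : ℝ) ≤ (0.512 : ℝ) ^ (1 / 3 : ℝ) :=
          Real.rpow_le_rpow h2.le (by linarith) (by norm_num)
      _ = 0.8 := by
          rw [show (0.512 : ℝ) = 0.8 ^ (3 : ℝ) by norm_num, ← Real.rpow_mul (by norm_num)]
          norm_num
  have h10 : 0 ≤ Real.log 3 ^ (2 / 3 : ℝ) := by positivity
  have h11 : 0 ≤ Real.log (Real.log 3) ^ (1 / 3 : ℝ) := by positivity
  nlinarith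

/-- `VK` is strictly increasing on `[3, ∞)` (contrapositive form). -/
lemma le_of_LL_one_le {S T : ℝ} (_hS : 3 ≤ S) (hT : 3 ≤ T) (h : LL 1 S ≤ LL 1 T) : S ≤ T := by
  by_contra hcon
  push Not at hcon
  have h1 := one_lt_log hT
  have h2 := loglog_pos hT
  have h3 : Real.log T < Real.log S := Real.log_lt_log (by linarith) hcon
  have h4 : Real.log (Real.log T) < Real.log (Real.log S) := Real.log_lt_log (by linarith) h3
  have h5 : LL 1 T < LL 1 S := by
    rw [LL_one, LL_one]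
    have h6 : Real.log T ^ (2 / 3 : ℝ) < Real.log S ^ (2 / 3 : ℝ) :=
      Real.rpow_lt_rpow (by linarith) h3 (by norm_num)
    have h7 : Real.log (Real.log T) ^ (1 / 3 : ℝ) < Real.log (Real.log S) ^ (1 / 3 : ℝ) :=
      Real.rpow_lt_rpow h2.le h4 (by norm_num)
    have h8 : 0 < Real.log (Real.log T) ^ (1 / 3 : ℝ) := by positivity
    have h9 : 0 < Real.log S ^ (2 / 3 : ℝ) := by
      have : 0 < Real.log S := by linarith
      positivity
    nlinarith [mul_lt_mul_of_pos_right h6 h8, mul_lt_mul_of_pos_left h7 h9]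
  linarith

/-- Data for a bound `W ≤ V`: the corresponding `Q` and `T`. -/
lemma exists_QT {V : ℝ} (hV : 1 ≤ V) : ∃ T : ℝ, 3 ≤ T ∧ LL (Real.exp V) T = 2 * V ∧
    ∀ x : CharIdx × ℂ, WW x ≤ V → ((x.1.1 : ℕ) : ℝ) ≤ Real.exp V ∧ |x.2.im| ≤ T := by
  obtain ⟨T, hT, hTV⟩ := exists_T 3 le_rfl (LL_three_le.trans hV)
  refine ⟨T, hT, ?_, ?_⟩
  · have h3 : LL (Real.exp V) T = Real.log (Real.exp V) + LL 1 T := by
      unfold LL; rw [Real.log_one]; ring
    rw [h3, Real.log_exp, hTV]; ring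
  · intro x hx
    unfold WW at hx
    have hq1 : (1 : ℝ) ≤ ((x.1.1 : ℕ) : ℝ) := by exact_mod_cast x.1.1.pos
    have hq0 := Real.log_nonneg hq1
    have him : 3 ≤ |x.2.im| + 3 := by linarith [abs_nonneg x.2.im]
    have hL0 := LL_nonneg (Q := 1) le_rfl him
    constructor
    · rw [← Real.exp_log (by linarith : (0 : ℝ) < ((x.1.1 : ℕ) : ℝ))]
      exact Real.exp_le_exp.2 (by linarith)
    · have h1 : LL 1 (|x.2.im| + 3) ≤ LL 1 T := by rw [hTV]; linarith
      have := le_of_LL_one_le him hT h1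
      linarith

lemma WW_pos (x : CharIdx × ℂ) : 0 < WW x := by
  unfold WW
  have hq1 : (1 : ℝ) ≤ ((x.1.1 : ℕ) : ℝ) := by exact_mod_cast x.1.1.pos
  have hq0 := Real.log_nonneg hq1
  have him : 3 ≤ |x.2.im| + 3 := by linarith [abs_nonneg x.2.im]
  have := LL_pos (Q := 1) le_rfl him
  linarith

lemma w_block {C : ℝ} (h : Density C) {K : ℝ} (hK : 0 ≤ K) {V : ℝ} (hV : 1 ≤ V)
    (S : Finset (CharIdx × ℂ)) (hS : ∀ x ∈ S, InW K x ∧ V / 2 < WW x ∧ WW x ≤ V) :
    ∑ x ∈ S, (zmul x : ℝ) ≤ C * Real.exp (C * (4 * K + (4 * K) ^ (3 / 2 : ℝ) * k3)) := by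
  obtain ⟨T, hT, hLL, hQT⟩ := exists_QT hV
  apply kfold_finite h (4 * K) (by positivity) (Real.exp V) (Real.one_le_exp (by linarith)) T hT S
  intro x hx
  obtain ⟨⟨hprim, hre1, hre2⟩, h1, h2⟩ := hS x hx
  obtain ⟨hq, him⟩ := hQT x h2
  refine ⟨hq, hprim, ?_, him⟩
  have hcomp : K / WW x ≤ 4 * K / LL (Real.exp V) T := by
    rw [hLL, div_le_div_iff₀ (WW_pos x) (by linarith)]
    nlinarith
  rcases min_choice (1 / 4 : ℝ) (4 * K / LL (Real.exp V) T) with h5 | h5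
  · rw [h5]; linarith
  · rw [h5]; linarith

lemma few_w_pow {C : ℝ} (h : Density C) {K : ℝ} (hK : 0 ≤ K) :
    ∃ A : ℝ, 0 ≤ A ∧ ∀ n : ℕ, ∀ S : Finset (CharIdx × ℂ),
      (∀ x ∈ S, InW K x ∧ WW x ≤ 2 ^ n) →
      ∑ x ∈ S, (zmul x : ℝ) ≤ A * ((n : ℝ) + 1) := by
  classical
  have hC := h.1
  have hk3 := k3_nonneg
  obtain ⟨T1, hT1, hLL1, hQT1⟩ := exists_QT (V := 1) le_rfl
  obtain ⟨B1, hB1⟩ : ∃ B1 : ℝ, B1 = C * Real.exp (C * (4 * K + (4 * K) ^ (3 / 2 : ℝ) * k3)) :=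
    ⟨_, rfl⟩
  obtain ⟨B2, hB2⟩ : ∃ B2 : ℝ, B2 = C * Real.exp (C * EE (Real.exp 1) T1 (1 / 4)) := ⟨_, rfl⟩
  have hB10 : 0 ≤ B1 := by rw [hB1]; positivity
  have hB20 : 0 ≤ B2 := by rw [hB2]; positivity
  refine ⟨B1 + B2, by positivity, ?_⟩
  intro n
  induction n with
  | zero =>
    intro S hS
    have h1 : ∑ x ∈ S, (zmul x : ℝ) ≤ B2 := by
      rw [hB2]
      apply h.2 (Real.exp 1) (Real.one_le_exp (by norm_num)) T1 hT1 (1 / 4) (by norm_num) le_rfl S
      intro x hx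
      obtain ⟨⟨hprim, hre1, hre2⟩, h2⟩ := hS x hx
      obtain ⟨hq, him⟩ := hQT1 x (by simpa using h2)
      exact ⟨hq, hprim, by linarith, him⟩
    have : (B1 + B2) * (((0 : ℕ) : ℝ) + 1) = B1 + B2 := by push_cast; ring
    rw [this]
    linarith
  | succ n ih =>
    intro S hS
    have h1 := ih (S.filter (fun x => WW x ≤ 2 ^ n)) (by
      intro x hx
      rw [Finset.mem_filter] at hx
      exact ⟨(hS x hx.1).1, hx.2⟩)
    have h2 := w_block h hK (V := 2 ^ (n + 1)) (one_le_pow₀ (by norm_num))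
      (S.filter (fun x => ¬ WW x ≤ 2 ^ n)) (by
      intro x hx
      rw [Finset.mem_filter] at hx
      refine ⟨(hS x hx.1).1, ?_, (hS x hx.1).2⟩
      have := not_le.1 hx.2
      have h3 : (2 : ℝ) ^ (n + 1) / 2 = 2 ^ n := by rw [pow_succ]; ring
      rw [h3]; exact this)
    rw [← hB1] at h2
    rw [← Finset.sum_filter_add_sum_filter_not S (fun x => WW x ≤ 2 ^ n)]
    push_cast
    have : (B1 + B2) * ((n : ℝ) + 1 + 1) = (B1 + B2) * ((n : ℝ) + 1) + (B1 + B2) := by ring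
    rw [this]
    linarith

/-- **Few exceptions to the `K`-fold region, uniformly in all characters and all heights.** -/
theorem few_w {C : ℝ} (h : Density C) (K : ℝ) (hK : 0 ≤ K) :
    ∃ C' : ℝ, ∀ V : ℝ, 2 ≤ V → wCount K V ≤ ENNReal.ofReal (C' * Real.log V) := by
  classical
  obtain ⟨A, hA, hmain⟩ := few_w_pow h hK
  refine ⟨5 * A, fun V hV => ?_⟩
  have hl2 : (0.69 : ℝ) < Real.log 2 := by have := Real.log_two_gt_d9; linarith
  have hlV : Real.log 2 ≤ Real.log V := Real.log_le_log (by norm_num) hV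
  set u := Real.log V with hu
  set n : ℕ := ⌈u / Real.log 2⌉₊ with hn
  have hn1 : u / Real.log 2 ≤ n := Nat.le_ceil _
  have hn2 : (n : ℝ) < u / Real.log 2 + 1 :=
    Nat.ceil_lt_add_one (div_nonneg (by linarith) (by linarith))
  have hn3 : (n : ℝ) + 1 ≤ 5 * u := by
    have h1 : u / Real.log 2 ≤ 1.5 * u := by
      rw [div_le_iff₀ (by linarith)]; nlinarith
    linarith
  have hVn : V ≤ 2 ^ n := by
    rw [← Real.log_le_log_iff (by linarith) (by positivity), Real.log_pow]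
    rw [div_le_iff₀ (by linarith)] at hn1
    exact hn1
  have hfin : ∀ S : Finset (CharIdx × ℂ), (∀ x ∈ S, InW K x ∧ WW x ≤ V) →
      ∑ x ∈ S, (zmul x : ℝ) ≤ 5 * A * u := by
    intro S hS
    refine (hmain n S (fun x hx => ⟨(hS x hx).1, (hS x hx).2.trans hVn⟩)).trans ?_
    calc A * ((n : ℝ) + 1) ≤ A * (5 * u) := by gcongr
      _ = 5 * A * u := by ring
  unfold wCount
  rw [ENNReal.tsum_eq_iSup_sum]
  apply iSup_le
  intro S
  have h1 : ∑ x ∈ S, (if InW K x ∧ WW x ≤ V then ((zord x : ℕ∞) : ENNReal) else 0)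
      = ∑ x ∈ S.filter (fun x => InW K x ∧ WW x ≤ V), ((zmul x : ℕ) : ENNReal) := by
    rw [← Finset.sum_filter]
    refine Finset.sum_congr rfl fun x _ => ?_
    rw [zord_eq]
    simp
  have h2 := hfin (S.filter (fun x => InW K x ∧ WW x ≤ V))
    (fun x hx => (Finset.mem_filter.1 hx).2)
  calc ∑ x ∈ S, (if InW K x ∧ WW x ≤ V then ((zord x : ℕ∞) : ENNReal) else 0)
      = ENNReal.ofReal (∑ x ∈ S.filter (fun x => InW K x ∧ WW x ≤ V), (zmul x : ℝ)) := by
        rw [h1, ENNReal.ofReal_sum_of_nonneg (fun _ _ => Nat.cast_nonneg _)]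
        refine Finset.sum_congr rfl fun x _ => ?_
        rw [ENNReal.ofReal_natCast]
    _ ≤ ENNReal.ofReal (5 * A * u) := ENNReal.ofReal_le_ofReal h2

end Vale.Agent.P026.H267
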