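import Mathlib
import Vale.Agent.P026.H267.Assemble

open Finset

namespace Vale.Agent.P026.H267

open Vale.Agent.P026.H392 (LL MM)

/-- Bound for families of zeros which are `1/MM`-spaced for equal characters. -/
def SpacedBound (C d0 M0 : ℝ) : Prop :=
  ∀ Q : ℝ, 1 ≤ Q → ∀ T : ℝ, 3 ≤ T → ∀ d : ℝ, 0 ≤ d → d ≤ d0 →
    ∀ J : Finset (CharIdx × ℂ),
      (∀ x ∈ J, InRegion Q T d x ∧ Lf x.1 x.2 = 0 ∧
        ((x.1.1 : ℕ) = 1 → C * Real.exp (C * d * MM M0 Q T d) ≤ |x.2.im|)) →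
      (∀ x ∈ J, ∀ y ∈ J, x ≠ y → x.1 = y.1 → 1 ≤ MM M0 Q T d * |x.2.im - y.2.im|) →
      (J.card : ℝ) ≤ C * Real.exp (C * d * MM M0 Q T d)

lemma spaced_of_parity {M a b : ℝ} (h : ⌊M * a⌋ ≠ ⌊M * b⌋) (hp : ⌊M * a⌋ % 2 = ⌊M * b⌋ % 2)
    (hM : 0 < M) : 1 ≤ M * |a - b| := by
  have h1 : (⌊M * a⌋ : ℝ) ≤ M * a := Int.floor_le _
  have h2 : M * a < ⌊M * a⌋ + 1 := Int.lt_floor_add_one _
  have h3 : (⌊M * b⌋ : ℝ) ≤ M * b := Int.floor_le _
  have h4 : M * b < ⌊M * b⌋ + 1 := Int.lt_floor_add_one _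
  have h5 : M * |a - b| = |M * a - M * b| := by
    rw [← mul_sub, abs_mul, abs_of_pos hM]
  rw [h5]
  rcases lt_or_gt_of_ne h with h6 | h6
  · have h7 : ⌊M * a⌋ + 2 ≤ ⌊M * b⌋ := by omega
    have h8 : (⌊M * a⌋ : ℝ) + 2 ≤ ⌊M * b⌋ := by exact_mod_cast h7
    rw [abs_sub_comm, le_abs]
    left; linarith
  · have h7 : ⌊M * b⌋ + 2 ≤ ⌊M * a⌋ := by omega
    have h8 : (⌊M * b⌋ : ℝ) + 2 ≤ ⌊M * a⌋ := by exact_mod_cast h7
    rw [le_abs]
    left; linarith

theorem rbound_of_spaced {C d0 M0 : ℝ} (hM0 : 8 ≤ M0) (hd0 : 0 < d0) (h : SpacedBound C d0 M0) :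
    RBound (2 * C) d0 M0 := by
  classical
  have hC : 0 ≤ C := by
    have h1 := h 1 le_rfl 3 le_rfl 0 le_rfl hd0.le ∅ (by simp) (by simp)
    simp at h1
    exact h1
  intro Q hQ T hT d hd hdd J hJ hinj
  have hM8 : 8 ≤ MM M0 Q T d := hM0.trans (M0_le_MM hQ hT)
  have hMpos : 0 < MM M0 Q T d := by linarith
  set M := MM M0 Q T d with hM
  have hexp : C * Real.exp (C * d * M) ≤ 2 * C * Real.exp (2 * C * d * M) := by
    have h1 : Real.exp (C * d * M) ≤ Real.exp (2 * C * d * M) := by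
      apply Real.exp_le_exp.2
      have : 0 ≤ C * d * M := by positivity
      linarith
    nlinarith [Real.exp_pos (C * d * M), mul_nonneg hC (Real.exp_pos (2 * C * d * M)).le]
  have key : ∀ i : ℤ, ((J.filter (fun x => ⌊M * x.2.im⌋ % 2 = i)).card : ℝ)
      ≤ C * Real.exp (C * d * M) := by
    intro i
    apply h Q hQ T hT d hd hdd
    · intro x hx
      obtain ⟨h1, h2, h3⟩ := hJ x (Finset.mem_filter.1 hx).1
      exact ⟨h1, h2, fun hq => hexp.trans (h3 hq)⟩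
    · intro x hx y hy hxy hxy1
      rw [Finset.mem_filter] at hx hy
      apply spaced_of_parity _ (hx.2.trans hy.2.symm) hMpos
      intro hfl
      apply hxy
      apply hinj (Finset.mem_coe.2 hx.1) (Finset.mem_coe.2 hy.1)
      exact Prod.ext hxy1 hfl
  have hsplit : J = J.filter (fun x => ⌊M * x.2.im⌋ % 2 = 0) ∪
      J.filter (fun x => ⌊M * x.2.im⌋ % 2 = 1) := by
    ext x
    simp only [Finset.mem_union, Finset.mem_filter]
    constructor
    · intro hx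
      rcases Int.emod_two_eq_zero_or_one ⌊M * x.2.im⌋ with h1 | h1
      · left; exact ⟨hx, h1⟩
      · right; exact ⟨hx, h1⟩
    · rintro (hx | hx) <;> exact hx.1
  have hcard : (J.card : ℝ) ≤ ((J.filter (fun x => ⌊M * x.2.im⌋ % 2 = 0)).card : ℝ) +
      ((J.filter (fun x => ⌊M * x.2.im⌋ % 2 = 1)).card : ℝ) := by
    have : J.card ≤ (J.filter (fun x => ⌊M * x.2.im⌋ % 2 = 0)).card +
      (J.filter (fun x => ⌊M * x.2.im⌋ % 2 = 1)).card := by
      conv_lhs => rw [hsplit]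
      exact Finset.card_union_le _ _
    exact_mod_cast this
  have h1 : Real.exp (C * d * M) ≤ Real.exp (2 * C * d * M) := by
    apply Real.exp_le_exp.2
    have : 0 ≤ C * d * M := by positivity
    linarith
  calc (J.card : ℝ) ≤ C * Real.exp (C * d * M) + C * Real.exp (C * d * M) :=
        hcard.trans (add_le_add (key 0) (key 1))
    _ = 2 * C * Real.exp (C * d * M) := by ring
    _ ≤ 2 * C * Real.exp (2 * C * d * M) := by gcongr

end Vale.Agent.P026.H267
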