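import Mathlib
import Vale.Agent.P026.H142.LinkProof
import Vale.Agent.P026.H392.Local
import Vale.Agent.P026.H392.LocalB
import Vale.Agent.P026.H392.Trivial
import Vale.Agent.P026.H267.Spaced
import Vale.Agent.P026.H267.Corollaries

open Finset

namespace Vale.Agent.P026.H267

open Vale.Agent.P026.H392 (LL MM)

lemma ne_one_or_of_primitive {x : CharIdx} (hp : x.2.IsPrimitive) : x.2 ≠ 1 ∨ (x.1 : ℕ) = 1 := by
  by_cases h : x.2 = 1
  · right
    rw [DirichletCharacter.isPrimitive_def, h, DirichletCharacter.conductor_one] at hp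
    exact hp.symm
  · left; exact h

theorem localCount : ∃ C, LocalCount C := by
  obtain ⟨C, c, hC, hc, hVK⟩ := Vale.Agent.P026.H517.exists_VKSum
  obtain ⟨K1, r1, hK1, hr10, hr116, hloc⟩ := Vale.Agent.P026.H392.local_count hC hc hVK
  obtain ⟨K2, hK2, htriv⟩ := Vale.Agent.P026.H392.trivial_count
  refine ⟨K1 + K2 * (1 / r1 + 2 / r1 ^ (3 / 2 : ℝ)), ?_⟩
  intro Q hQ T hT x hxQ hp t ht _ r hr0 hr4 S hS
  have hlT := one_lt_log hT
  have hlQ := Real.log_nonneg hQ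
  have hLL := LL_nonneg hQ hT
  have hLLQ := LL_ge_log (Q := Q) hT
  have hor := ne_one_or_of_primitive hp
  have hA : 0 ≤ K2 * (1 / r1 + 2 / r1 ^ (3 / 2 : ℝ)) := by positivity
  have hB : 0 ≤ 1 + r * LL Q T + r ^ (3 / 2 : ℝ) * Real.log T := by positivity
  rcases le_or_gt r r1 with hr | hr
  · have h1 := hloc Q T hQ hT (x.1 : ℕ) x.2 (by nlinarith) hor t r (by linarith) hr0 hr S
      (fun ρ hρ => by rw [Metric.mem_closedBall, dist_eq_norm]; exact hS ρ hρ)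
    refine le_trans (show ∑ ρ ∈ S, (zmul (x, ρ) : ℝ) ≤ K1 * (1 + r * LL Q T + r ^ (3 / 2 : ℝ) *
      Real.log T) from h1) ?_
    apply mul_le_mul_of_nonneg_right _ hB
    linarith
  · have h1 := htriv (x.1 : ℕ) x.2 hor t S (fun ρ hρ => by
      rw [Metric.mem_closedBall, dist_eq_norm]
      exact (hS ρ hρ).trans (by linarith))
    have hq0 : (0 : ℝ) < ((x.1 : ℕ) : ℝ) := by exact_mod_cast x.1.pos
    have hlog : Real.log ((x.1 : ℕ) * (|t| + 3)) ≤ LL Q T + 2 * Real.log T := by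
      rw [Real.log_mul hq0.ne' (by positivity)]
      have e1 : Real.log ((x.1 : ℕ) : ℝ) ≤ Real.log Q := Real.log_le_log hq0 hxQ
      have e2 : Real.log (|t| + 3) ≤ Real.log (T * T) := by
        apply Real.log_le_log (by positivity)
        nlinarith
      rw [Real.log_mul (by linarith) (by linarith)] at e2
      linarith
    have hrr : 1 ≤ r / r1 := by rw [le_div_iff₀ hr10]; linarith
    have hrr2 : 1 ≤ r ^ (3 / 2 : ℝ) / r1 ^ (3 / 2 : ℝ) := by
      rw [le_div_iff₀ (by positivity), one_mul]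
      exact Real.rpow_le_rpow hr10.le hr.le (by norm_num)
    have e3 : LL Q T ≤ (1 / r1) * (r * LL Q T) := by
      calc LL Q T = 1 * LL Q T := (one_mul _).symm
        _ ≤ r / r1 * LL Q T := by gcongr
        _ = _ := by ring
    have e4 : 2 * Real.log T ≤ (2 / r1 ^ (3 / 2 : ℝ)) * (r ^ (3 / 2 : ℝ) * Real.log T) := by
      calc 2 * Real.log T = 1 * (2 * Real.log T) := (one_mul _).symm
        _ ≤ r ^ (3 / 2 : ℝ) / r1 ^ (3 / 2 : ℝ) * (2 * Real.log T) := by gcongr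
        _ = _ := by ring
    have hb0 : 0 ≤ r * LL Q T := by positivity
    have hb1 : 0 ≤ r ^ (3 / 2 : ℝ) * Real.log T := by positivity
    have ha0 : 0 ≤ 1 / r1 := by positivity
    have ha1 : 0 ≤ 2 / r1 ^ (3 / 2 : ℝ) := by positivity
    refine le_trans (show ∑ ρ ∈ S, (zmul (x, ρ) : ℝ) ≤ K2 * Real.log ((x.1 : ℕ) * (|t| + 3))
      from h1) ?_
    calc K2 * Real.log ((x.1 : ℕ) * (|t| + 3)) ≤ K2 * (LL Q T + 2 * Real.log T) := by gcongr
      _ ≤ K2 * ((1 / r1) * (r * LL Q T) + (2 / r1 ^ (3 / 2 : ℝ)) * (r ^ (3 / 2 : ℝ) *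
          Real.log T)) := by gcongr
      _ ≤ K2 * ((1 / r1 + 2 / r1 ^ (3 / 2 : ℝ)) * (1 + r * LL Q T + r ^ (3 / 2 : ℝ) *
          Real.log T)) := by
          apply mul_le_mul_of_nonneg_left _ (by linarith)
          nlinarith [mul_nonneg ha0 hb1, mul_nonneg ha1 hb0]
      _ = (K2 * (1 / r1 + 2 / r1 ^ (3 / 2 : ℝ))) * (1 + r * LL Q T + r ^ (3 / 2 : ℝ) *
          Real.log T) := by ring
      _ ≤ _ := by
          apply mul_le_mul_of_nonneg_right _ hB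
          linarith

theorem trivCount : ∃ C, TrivCount C := by
  classical
  obtain ⟨K2, hK2, htriv⟩ := Vale.Agent.P026.H392.trivial_count
  refine ⟨36 * K2, ?_⟩
  intro x hp T hT S hS
  have hor := ne_one_or_of_primitive hp
  have hq1 : (1 : ℝ) ≤ ((x.1 : ℕ) : ℝ) := by exact_mod_cast x.1.pos
  set q : ℝ := ((x.1 : ℕ) : ℝ) with hq
  set S' := S.filter (fun ρ => zmul (x, ρ) ≠ 0) with hS'
  have h1 : ∑ ρ ∈ S, (zmul (x, ρ) : ℝ) = ∑ ρ ∈ S', (zmul (x, ρ) : ℝ) := by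
    symm
    apply Finset.sum_subset (Finset.filter_subset _ _)
    intro ρ hρ hρ2
    have : zmul (x, ρ) = 0 := by
      by_contra hcon
      exact hρ2 (Finset.mem_filter.2 ⟨hρ, hcon⟩)
    simp [this]
  set I : Finset ℤ := Finset.Icc (-(⌈4 * T⌉ + 1)) ⌈4 * T⌉ with hI
  have hmaps : ∀ ρ ∈ S', ⌊4 * ρ.im⌋ ∈ I := by
    intro ρ hρ
    obtain ⟨_, him⟩ := hS ρ (Finset.mem_filter.1 hρ).1
    rw [abs_le] at him
    rw [hI, Finset.mem_Icc]
    constructor
    · rw [Int.le_floor]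
      push_cast
      have := Int.le_ceil (4 * T)
      linarith
    · rw [← Int.cast_le (R := ℝ)]
      have := Int.le_ceil (4 * T)
      have := Int.floor_le (4 * ρ.im)
      linarith
  have h2 : ∑ ρ ∈ S', (zmul (x, ρ) : ℝ)
      = ∑ j ∈ I, ∑ ρ ∈ S'.filter (fun ρ => ⌊4 * ρ.im⌋ = j), (zmul (x, ρ) : ℝ) := by
    rw [Finset.sum_fiberwise_of_maps_to hmaps]
  have hceil : (⌈4 * T⌉ : ℝ) < 4 * T + 1 := Int.ceil_lt_add_one _
  have h3 : ∀ j ∈ I, ∑ ρ ∈ S'.filter (fun ρ => ⌊4 * ρ.im⌋ = j), (zmul (x, ρ) : ℝ)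
      ≤ K2 * (3 * q * T) := by
    intro j hj
    rw [hI, Finset.mem_Icc] at hj
    have hj1 : -((⌈4 * T⌉ : ℝ) + 1) ≤ j := by
      have := hj.1
      exact_mod_cast this
    have hj2 : (j : ℝ) ≤ ⌈4 * T⌉ := by exact_mod_cast hj.2
    have h4 := htriv (x.1 : ℕ) x.2 hor ((j : ℝ) / 4) (S'.filter (fun ρ => ⌊4 * ρ.im⌋ = j)) (by
      intro ρ hρ
      rw [Finset.mem_filter] at hρ
      obtain ⟨hρ1, hρ2⟩ := hρ
      rw [hS', Finset.mem_filter] at hρ1
      obtain ⟨hρS, hρz⟩ := hρ1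
      obtain ⟨hre, him⟩ := hS ρ hρS
      have hre1 := (zmul_ne_zero hρz hp).2
      have hf1 : (j : ℝ) ≤ 4 * ρ.im := by rw [← hρ2]; exact Int.floor_le _
      have hf2 : 4 * ρ.im < j + 1 := by rw [← hρ2]; exact Int.lt_floor_add_one _
      rw [Metric.mem_closedBall, dist_eq_norm]
      have h5 : ‖ρ - ((1 : ℂ) + (((j : ℝ) / 4 : ℝ) : ℂ) * Complex.I)‖ ^ 2
          = (ρ.re - 1) ^ 2 + (ρ.im - (j : ℝ) / 4) ^ 2 := by
        rw [Complex.sq_norm, Complex.normSq_apply]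
        simp
        ring
      have h6 : ‖ρ - ((1 : ℂ) + (((j : ℝ) / 4 : ℝ) : ℂ) * Complex.I)‖ ^ 2 ≤ (3 / 8) ^ 2 := by
        rw [h5]
        nlinarith
      exact (pow_le_pow_iff_left₀ (norm_nonneg _) (by norm_num) (by norm_num)).1 h6)
    refine le_trans (show ∑ ρ ∈ S'.filter (fun ρ => ⌊4 * ρ.im⌋ = j), (zmul (x, ρ) : ℝ)
      ≤ K2 * Real.log ((x.1 : ℕ) * (|(j : ℝ) / 4| + 3)) from h4) ?_
    have habs : |(j : ℝ) / 4| ≤ T + 1 := by
      rw [abs_le]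
      constructor <;> linarith
    have hpos : 0 < q * (|(j : ℝ) / 4| + 3) := by positivity
    have hlog := Real.log_le_sub_one_of_pos hpos
    have h7 : q * (|(j : ℝ) / 4| + 3) ≤ 3 * q * T := by
      have : |(j : ℝ) / 4| + 3 ≤ 3 * T := by linarith
      nlinarith
    have hK : 0 ≤ K2 := by linarith
    apply mul_le_mul_of_nonneg_left _ hK
    exact hlog.trans (by linarith)
  have hcard : (I.card : ℝ) ≤ 12 * T := by
    rw [hI, Int.card_Icc]
    have h8 : 0 ≤ ⌈4 * T⌉ := Int.ceil_nonneg (by linarith)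
    have h9 : (((⌈4 * T⌉ + 1 - -(⌈4 * T⌉ + 1)).toNat : ℕ) : ℝ)
        = ((⌈4 * T⌉ + 1 - -(⌈4 * T⌉ + 1) : ℤ) : ℝ) := by
      have : 0 ≤ ⌈4 * T⌉ + 1 - -(⌈4 * T⌉ + 1) := by omega
      exact_mod_cast Int.toNat_of_nonneg this
    rw [h9]
    push_cast
    linarith
  rw [h1, h2]
  calc ∑ j ∈ I, ∑ ρ ∈ S'.filter (fun ρ => ⌊4 * ρ.im⌋ = j), (zmul (x, ρ) : ℝ)
      ≤ I.card • (K2 * (3 * q * T)) := Finset.sum_le_card_nsmul _ _ _ h3
    _ = (I.card : ℝ) * (K2 * (3 * q * T)) := by rw [nsmul_eq_mul]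
    _ ≤ (12 * T) * (K2 * (3 * q * T)) := by gcongr
    _ = 36 * K2 * (q * T ^ 2) := by ring
    _ ≤ 36 * K2 * (q * T) ^ 2 := by
        have : q * T ^ 2 ≤ (q * T) ^ 2 := by
          rw [mul_pow]
          have : q ≤ q ^ 2 := by nlinarith
          gcongr
        gcongr

theorem rBound : ∃ C d0 M0, 0 < d0 ∧ 8 ≤ M0 ∧ RBound C d0 M0 := by
  obtain ⟨C, d0, M0, hC, hd0, hM0, h⟩ := Vale.Agent.P026.H142.spacedBound
  exact ⟨2 * C, d0, M0, hd0, hM0, rbound_of_spaced hM0 hd0 h⟩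

theorem density : ∃ C, Density C := by
  obtain ⟨C, hC, h⟩ := main_finite trivCount localCount rBound
  exact ⟨C, hC, h⟩

end Vale.Agent.P026.H267
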