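import Mathlib
import Vale.Agent.P026.H267.Dichotomy
import Vale.Agent.P026.H17.ZeroFree

open Finset Filter Topology

namespace Vale.Agent.P026.H267

open Vale.Agent.P026.H392 (LL MM)

/-- The conclusion of `vk_region` with constant `c`. -/
def VKRegion (c : ℝ) : Prop :=
  ∀ Q T : ℝ, 1 ≤ Q → 3 ≤ T →
    (∀ x : CharIdx × ℂ, ((x.1.1 : ℕ) : ℝ) ≤ Q → x.1.2.IsPrimitive → Lf x.1 x.2 = 0 →
      |x.2.im| ≤ T → 1 - c / LL Q T ≤ x.2.re →
      x.1.2 ≠ 1 ∧ x.1.2 ^ 2 = 1 ∧ x.2.im = 0 ∧ zmul x = 1) ∧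
    (∀ x y : CharIdx × ℂ, ((x.1.1 : ℕ) : ℝ) ≤ Q → x.1.2.IsPrimitive → Lf x.1 x.2 = 0 →
      |x.2.im| ≤ T → 1 - c / LL Q T ≤ x.2.re →
      ((y.1.1 : ℕ) : ℝ) ≤ Q → y.1.2.IsPrimitive → Lf y.1 y.2 = 0 →
      |y.2.im| ≤ T → 1 - c / LL Q T ≤ y.2.re → x = y)

/-- **Dichotomy** with the exceptional zero inside the `c0`-region. -/
theorem dichotomy' {c C d0 c0 : ℝ} (hc : 0 < c) (hC : 0 < C) (hd0 : 0 < d0) (hc0 : 0 < c0)
    (h : DHProp c C d0) :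
    (∃ c : ℝ, 0 < c ∧ NoSiegel c) ∨
    (∀ K T0 : ℝ, ∃ T : ℝ, T0 ≤ T ∧ 3 ≤ T ∧ ∃ x₁ : CharIdx × ℂ, x₁.1.2 ≠ 1 ∧
      x₁.1.2.IsPrimitive ∧ ((x₁.1.1 : ℕ) : ℝ) ≤ Real.exp (LL 1 T) ∧ x₁.2.im = 0 ∧
      Lf x₁.1 x₁.2 = 0 ∧ 1 - c0 / LL (Real.exp (LL 1 T)) T ≤ x₁.2.re ∧
      ∀ x : CharIdx × ℂ, x.1.2.IsPrimitive → x ≠ x₁ →
        Real.log ((x.1.1 : ℕ) : ℝ) ≤ LL 1 T → |x.2.im| ≤ T → 1 - K / LL 1 T ≤ x.2.re →
          Lf x.1 x.2 ≠ 0) := by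
  by_cases hS : ∃ c : ℝ, 0 < c ∧ NoSiegel c
  · left; exact hS
  right
  push Not at hS
  intro K' T0'
  set K := max K' 1 with hK
  have hK1 : 1 ≤ K := le_max_right _ _
  have hKK : K' ≤ K := le_max_left _ _
  -- enlarge T0 so that `K / VK T ≤ d0`
  obtain ⟨T0, hT03, hT0T, hT0d⟩ : ∃ T0 : ℝ, 3 ≤ T0 ∧ T0' ≤ T0 ∧ K / d0 ≤ LL 1 T0 := by
    have h1 := (LL_one_tendsto.eventually_ge_atTop (K / d0)).and
      ((eventually_ge_atTop (3 : ℝ)).and (eventually_ge_atTop T0'))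
    obtain ⟨T, h2, h3, h4⟩ := h1.exists
    exact ⟨T, h3, h4, h2⟩
  -- the quality of the Siegel zero
  set E0 : ℝ := C * (2 * K + K ^ (3 / 2 : ℝ) * k3) with hE0
  obtain ⟨ε, hε, hbd⟩ := bounded_modulus (Real.exp (LL 1 T0))
  set c1 : ℝ := min (min (c * Real.exp (-E0) / 4) (ε / 2)) (c0 / 2) with hc1
  have hc10 : 0 < c1 := lt_min (lt_min (by positivity) (by positivity)) (by positivity)
  have hns := hS c1 hc10
  unfold NoSiegel at hns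
  push Not at hns
  obtain ⟨χ₁, hprim, hsq, hne, β, hβ1, hβ2, hβ0⟩ := hns
  -- modulus at least 3
  have hq3 : 1 < Real.log ((χ₁.1 : ℕ) : ℝ) := by
    apply one_lt_log
    exact_mod_cast three_le_of_ne_one hne
  have hqlarge : Real.exp (LL 1 T0) < ((χ₁.1 : ℕ) : ℝ) := by
    by_contra hcon
    push Not at hcon
    refine hbd χ₁ hcon hne β ?_ hβ2 hβ0
    have h1 : c1 / Real.log ((χ₁.1 : ℕ) : ℝ) ≤ c1 := div_le_self hc10.le hq3.le
    have h2 : c1 ≤ ε / 2 := (min_le_left _ _).trans (min_le_right _ _)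
    linarith
  have hq0 : (0 : ℝ) < ((χ₁.1 : ℕ) : ℝ) := by exact_mod_cast χ₁.1.pos
  have hlogq : LL 1 T0 ≤ Real.log ((χ₁.1 : ℕ) : ℝ) := by
    rw [Real.le_log_iff_exp_le hq0]; exact hqlarge.le
  obtain ⟨T, hT0T1, hTeq⟩ := exists_T T0 hT03 hlogq
  have hT3 : 3 ≤ T := hT03.trans hT0T1
  have hVpos : 0 < LL 1 T := LL_pos le_rfl hT3
  have hLLQ' : LL (Real.exp (LL 1 T)) T = 2 * LL 1 T := by
    have h3 : LL (Real.exp (LL 1 T)) T = Real.log (Real.exp (LL 1 T)) + LL 1 T := by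
      unfold LL; rw [Real.log_one]; ring
    rw [h3, Real.log_exp]
    ring
  have h7 : 1 - β < c1 / Real.log ((χ₁.1 : ℕ) : ℝ) := by linarith
  refine ⟨T, hT0T.trans hT0T1, hT3, (χ₁, (β : ℂ)), hne, hprim, ?_, ?_, hβ0, ?_, ?_⟩
  · show ((χ₁.1 : ℕ) : ℝ) ≤ Real.exp (LL 1 T)
    rw [hTeq, Real.exp_log hq0]
  · simp
  · rw [hLLQ']
    show 1 - c0 / (2 * LL 1 T) ≤ (β : ℂ).re
    rw [Complex.ofReal_re]
    have h8 : c1 ≤ c0 / 2 := min_le_right _ _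
    have h9 : c1 / Real.log ((χ₁.1 : ℕ) : ℝ) ≤ c0 / (2 * LL 1 T) := by
      rw [← hTeq, div_mul_eq_div_div]
      gcongr
    linarith
  intro x hxp hxne hxq hxim hxre hzero
  set Q : ℝ := Real.exp (LL 1 T) with hQ
  have hQ1 : 1 ≤ Q := Real.one_le_exp hVpos.le
  have hLLQ : LL Q T = 2 * LL 1 T := hLLQ'
  set d : ℝ := K / LL 1 T with hd
  have hdpos : 0 ≤ d := by positivity
  have hdd0 : d ≤ d0 := by
    rw [hd, div_le_iff₀ hVpos]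
    have h1 : LL 1 T0 ≤ LL 1 T := LL_one_mono hT03 hT0T1
    have h2 := hT0d.trans h1
    rw [div_le_iff₀ hd0] at h2
    linarith
  have hreg : InRegion Q T d x := by
    refine ⟨?_, hxp, ?_, hxim⟩
    · have hq0 : (0 : ℝ) < ((x.1.1 : ℕ) : ℝ) := by exact_mod_cast x.1.1.pos
      rw [← Real.exp_log hq0]
      exact Real.exp_le_exp.2 hxq
    · have : K' / LL 1 T ≤ d := by rw [hd]; gcongr
      linarith
  have hq1Q : ((χ₁.1 : ℕ) : ℝ) ≤ Q := by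
    rw [hQ, hTeq, Real.exp_log hq0]
  have hδ : Lf χ₁ ((1 - (1 - β) : ℝ) : ℂ) = 0 := by
    rw [show (1 - (1 - β) : ℝ) = β by ring]; exact hβ0
  have hDH := h Q hQ1 T hT3 d hdpos hdd0 χ₁ hq1Q hprim hsq hne (1 - β) (by linarith) hδ x hreg
    hzero (by rw [show (1 - (1 - β) : ℝ) = β by ring]; exact hxne)
  have hEE : C * EE Q T d ≤ E0 := by
    rw [hE0]
    apply mul_le_mul_of_nonneg_left _ hC.le
    unfold EE
    have h1 : d * LL Q T = 2 * K := by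
      rw [hLLQ, hd]; field_simp
    have h2 : d ^ (3 / 2 : ℝ) * Real.log T ≤ K ^ (3 / 2 : ℝ) * k3 := by
      rw [hd, Real.div_rpow (by linarith) hVpos.le, div_mul_eq_mul_div,
        div_le_iff₀ (by positivity), mul_assoc]
      have := log_le_LL_rpow (Q := 1) le_rfl hT3
      gcongr
    rw [h1]
    linarith
  have h5 : c * Real.exp (-E0) ≤ (1 - β) * LL Q T := by
    refine le_trans ?_ hDH
    apply mul_le_mul_of_nonneg_left _ hc.le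
    exact Real.exp_le_exp.2 (by linarith)
  have h6 : (1 - β) * LL Q T < 2 * c1 := by
    rw [hLLQ, hTeq]
    rw [lt_div_iff₀ (by linarith)] at h7
    linarith
  have h8 : c1 ≤ c * Real.exp (-E0) / 4 := (min_le_left _ _).trans (min_le_left _ _)
  have h9 : 0 < c * Real.exp (-E0) := by positivity
  linarith

/-- At most one nonzero term, of size at most one. -/
lemma sum_zmul_le_one {S : Finset (CharIdx × ℂ)}
    (h : ∀ x ∈ S, zmul x ≠ 0 → zmul x = 1)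
    (h2 : ∀ x ∈ S, ∀ y ∈ S, zmul x ≠ 0 → zmul y ≠ 0 → x = y) :
    ∑ x ∈ S, (zmul x : ℝ) ≤ 1 := by
  classical
  by_cases hex : ∃ x ∈ S, zmul x ≠ 0
  · obtain ⟨x, hx, hxz⟩ := hex
    rw [Finset.sum_eq_single x]
    · rw [h x hx hxz]; simp
    · intro y hy hyx
      by_contra hcon
      have hy0 : zmul y ≠ 0 := by
        intro h0; rw [h0] at hcon; simp at hcon
      exact hyx (h2 y hy x hx hy0 hxz)
    · intro hxS; exact absurd hx hxS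
  · push Not at hex
    have h1 : ∑ x ∈ S, (zmul x : ℝ) = 0 := by
      apply Finset.sum_eq_zero
      intro x hx
      rw [hex x hx]; simp
    rw [h1]; norm_num

/-- Finite form of the Landau–Page count. -/
theorem vk_count {c : ℝ} (h : VKRegion c) {Q T : ℝ} (hQ : 1 ≤ Q) (hT : 3 ≤ T)
    {S : Finset (CharIdx × ℂ)} (hS : ∀ x ∈ S, InRegion Q T (c / LL Q T) x) :
    ∑ x ∈ S, (zmul x : ℝ) ≤ 1 := by
  obtain ⟨h1, h2⟩ := h Q T hQ hT
  apply sum_zmul_le_one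
  · intro x hx hxz
    have hr := hS x hx
    have hx0 := (zmul_ne_zero hxz hr.2.1).1
    exact (h1 x hr.1 hr.2.1 hx0 hr.2.2.2 hr.2.2.1).2.2.2
  · intro x hx y hy hxz hyz
    have hr := hS x hx
    have hs := hS y hy
    have hx0 := (zmul_ne_zero hxz hr.2.1).1
    have hy0 := (zmul_ne_zero hyz hs.2.1).1
    exact h2 x y hr.1 hr.2.1 hx0 hr.2.2.2 hr.2.2.1 hs.1 hs.2.1 hy0 hs.2.2.2 hs.2.2.1

/-- Count in the second alternative of the dichotomy. -/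
theorem dichotomy_count {c C d0 c0 : ℝ} (hc : 0 < c) (hC : 0 < C) (hd0 : 0 < d0) (hc0 : 0 < c0)
    (h : DHProp c C d0) (hV : VKRegion c0) :
    (∃ c : ℝ, 0 < c ∧ NoSiegel c) ∨
    (∀ K T0 : ℝ, ∃ T : ℝ, T0 ≤ T ∧ 3 ≤ T ∧
      ∀ S : Finset (CharIdx × ℂ), (∀ x ∈ S, x.1.2.IsPrimitive ∧
        Real.log ((x.1.1 : ℕ) : ℝ) ≤ LL 1 T ∧ |x.2.im| ≤ T ∧ 1 - K / LL 1 T ≤ x.2.re) →
        ∑ x ∈ S, (zmul x : ℝ) ≤ 1) := by
  rcases dichotomy' hc hC hd0 hc0 h with h1 | h1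
  · left; exact h1
  right
  intro K T0
  obtain ⟨T, hT, hT3, x₁, hne, hp, hq, him, h0, hre, hall⟩ := h1 K T0
  refine ⟨T, hT, hT3, fun S hS => ?_⟩
  have hpos : 0 < LL 1 T := LL_pos le_rfl hT3
  have hall' : ∀ x ∈ S, zmul x ≠ 0 → x = x₁ := by
    intro x hx hxz
    by_contra hcon
    obtain ⟨hp', hq', him', hre'⟩ := hS x hx
    exact hall x hp' hcon hq' him' hre' (zmul_ne_zero hxz hp').1
  apply sum_zmul_le_one
  · intro x hx hxz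
    rw [hall' x hx hxz]
    exact ((hV (Real.exp (LL 1 T)) T (Real.one_le_exp hpos.le) hT3).1 x₁ hq hp h0
      (by rw [him]; simp; linarith) hre).2.2.2
  · intro x hx y hy hxz hyz
    rw [hall' x hx hxz, hall' y hy hyz]

end Vale.Agent.P026.H267
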